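import Crest.Agent.R254.Defs

/-! # Row 254, task A: averaged slopes -/

set_option autoImplicit false

open Set Finset Module

namespace Crest.Agent.R254

section avg
variable {B : Type*} [NormedAddCommGroup B] [NormedSpace ℝ B]
  {E : Type*} [NormedAddCommGroup E] [NormedSpace ℝ E] [CompleteSpace E]

omit [NormedSpace ℝ B] [NormedSpace ℝ E] [CompleteSpace E] in
theorem continuous_of_bound {F : B → E} {D : ℝ} (hF : ∀ x y, ‖F x - F y‖ ≤ D * ‖x - y‖) :
    Continuous F := by
  have : LipschitzWith (Real.toNNReal D) F := by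
    apply LipschitzWith.of_dist_le_mul
    intro x y
    rw [dist_eq_norm, dist_eq_norm]
    exact (hF x y).trans (mul_le_mul_of_nonneg_right (Real.le_coe_toNNReal D) (norm_nonneg _))
  exact this.continuous

theorem norm_avg_le {F : B → E} {D : ℝ} (hD : 0 ≤ D) (hF : ∀ x y, ‖F x - F y‖ ≤ D * ‖x - y‖)
    {e e' : B} (he : ‖e‖ ≤ 1) (p : B) {s : ℝ} (hs : 0 < s) :
    ‖avg F e e' p s‖ ≤ D := by
  have hc := continuous_of_bound hF
  unfold avg
  have h1 : IntervalIntegrable (fun t : ℝ => F (p + s • e + t • e')) MeasureTheory.volume 0 s :=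
    (by fun_prop : Continuous fun t : ℝ => F (p + s • e + t • e')).intervalIntegrable _ _
  have h2 : IntervalIntegrable (fun t : ℝ => F (p + t • e')) MeasureTheory.volume 0 s :=
    (by fun_prop : Continuous fun t : ℝ => F (p + t • e')).intervalIntegrable _ _
  rw [← intervalIntegral.integral_sub h1 h2, norm_smul]
  have h3 : ‖∫ t in (0 : ℝ)..s, (F (p + s • e + t • e') - F (p + t • e'))‖ ≤ D * s * |s - 0| := by
    apply intervalIntegral.norm_integral_le_of_norm_le_const
    intro t _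
    refine (hF _ _).trans ?_
    have : p + s • e + t • e' - (p + t • e') = s • e := by abel
    rw [this, norm_smul, Real.norm_eq_abs, abs_of_pos hs]
    apply mul_le_mul_of_nonneg_left _ hD
    exact mul_le_of_le_one_right hs.le he
  rw [sub_zero, abs_of_pos hs] at h3
  rw [Real.norm_eq_abs, abs_of_pos (by positivity)]
  calc (s ^ 2)⁻¹ * ‖∫ t in (0 : ℝ)..s, (F (p + s • e + t • e') - F (p + t • e'))‖
      ≤ (s ^ 2)⁻¹ * (D * s * s) := mul_le_mul_of_nonneg_left h3 (by positivity)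
    _ = D := by field_simp

omit [CompleteSpace E] in
theorem integral_split {g : ℝ → E} (hg : Continuous g) (σ : ℝ) (n : ℕ) :
    ∫ t in (0 : ℝ)..((n : ℝ) * σ), g t = ∑ b ∈ range n, ∫ t in (0 : ℝ)..σ, g ((b : ℝ) * σ + t) := by
  have h := intervalIntegral.sum_integral_adjacent_intervals (f := g) (μ := MeasureTheory.volume)
    (a := fun k : ℕ => (k : ℝ) * σ) (n := n) (fun k _ => hg.intervalIntegrable _ _)
  simp only [Nat.cast_zero, zero_mul] at h
  rw [← h]
  apply Finset.sum_congr rfl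
  intro b _
  rw [intervalIntegral.integral_comp_add_left (fun t => g t) ((b : ℝ) * σ), add_zero]
  congr 1
  push_cast
  ring

/-- scaled edge average (`F` averaged over the edge `[p, p + σ e']`, divided by `σ`) -/
noncomputable def edge (F : B → E) (e' p : B) (σ : ℝ) : E :=
  (σ ^ 2)⁻¹ • ∫ t in (0 : ℝ)..σ, F (p + t • e')

omit [CompleteSpace E] in
theorem avg_eq_edge (F : B → E) (e e' p : B) (σ : ℝ) :
    avg F e e' p σ = edge F e' (p + σ • e) σ - edge F e' p σ := by
  unfold avg edge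
  rw [smul_sub]

/-- martingale property -/
theorem avg_mul {F : B → E} {D : ℝ} (hF : ∀ x y, ‖F x - F y‖ ≤ D * ‖x - y‖)
    (e e' p : B) {σ : ℝ} (hσ : 0 < σ) {n : ℕ} (hn : 0 < n) :
    ((n : ℝ) ^ 2) • avg F e e' p ((n : ℝ) * σ) =
      ∑ a ∈ range n, ∑ b ∈ range n, avg F e e' (p + ((a : ℝ) * σ) • e + ((b : ℝ) * σ) • e') σ := by
  have hc := continuous_of_bound hF
  set H : ℕ → E := fun a => ∫ t in (0 : ℝ)..((n : ℝ) * σ), F (p + ((a : ℝ) * σ) • e + t • e') with hH
  have h1 : ∀ a : ℕ, H a = ∑ b ∈ range n,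
      ∫ t in (0 : ℝ)..σ, F (p + ((a : ℝ) * σ) • e + ((b : ℝ) * σ) • e' + t • e') := by
    intro a
    rw [hH]
    simp only
    rw [integral_split (by fun_prop : Continuous fun t : ℝ => F (p + ((a : ℝ) * σ) • e + t • e'))]
    apply Finset.sum_congr rfl
    intro b _
    congr 1
    funext t
    rw [add_smul]
    congr 1
    abel
  have h2 : ∀ a : ℕ, ∑ b ∈ range n,
      avg F e e' (p + ((a : ℝ) * σ) • e + ((b : ℝ) * σ) • e') σ = (σ ^ 2)⁻¹ • (H (a + 1) - H a) := by
    intro a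
    rw [h1, h1, ← Finset.sum_sub_distrib, Finset.smul_sum]
    apply Finset.sum_congr rfl
    intro b _
    unfold avg
    congr 3
    funext t
    congr 1
    push_cast
    rw [add_mul, one_mul, add_smul]
    abel
  simp only [h2]
  rw [← Finset.smul_sum, Finset.sum_range_sub]
  unfold avg
  rw [smul_smul]
  have h3 : (n : ℝ) ^ 2 * (((n : ℝ) * σ) ^ 2)⁻¹ = (σ ^ 2)⁻¹ := by
    have : (n : ℝ) ≠ 0 := by exact_mod_cast hn.ne'
    have := hσ.ne'
    field_simp
  rw [h3, hH]
  simp only [Nat.cast_zero, zero_mul, zero_smul, add_zero]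

theorem norm_edge_sub_le {F : B → E} {D : ℝ} (hF : ∀ x y, ‖F x - F y‖ ≤ D * ‖x - y‖)
    (e' p q : B) {σ : ℝ} (hσ : 0 < σ) :
    ‖edge F e' p σ - edge F e' q σ‖ ≤ D * ‖p - q‖ / σ := by
  have hc := continuous_of_bound hF
  unfold edge
  have h1 : IntervalIntegrable (fun t : ℝ => F (p + t • e')) MeasureTheory.volume 0 σ :=
    (by fun_prop : Continuous fun t : ℝ => F (p + t • e')).intervalIntegrable _ _
  have h2 : IntervalIntegrable (fun t : ℝ => F (q + t • e')) MeasureTheory.volume 0 σ :=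
    (by fun_prop : Continuous fun t : ℝ => F (q + t • e')).intervalIntegrable _ _
  rw [← smul_sub, ← intervalIntegral.integral_sub h1 h2, norm_smul]
  have h3 : ‖∫ t in (0 : ℝ)..σ, (F (p + t • e') - F (q + t • e'))‖ ≤ D * ‖p - q‖ * |σ - 0| := by
    apply intervalIntegral.norm_integral_le_of_norm_le_const
    intro t _
    refine (hF _ _).trans (le_of_eq ?_)
    congr 2
    abel
  rw [sub_zero, abs_of_pos hσ] at h3
  rw [Real.norm_eq_abs, abs_of_pos (by positivity)]
  calc (σ ^ 2)⁻¹ * ‖∫ t in (0 : ℝ)..σ, (F (p + t • e') - F (q + t • e'))‖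
      ≤ (σ ^ 2)⁻¹ * (D * ‖p - q‖ * σ) := mul_le_mul_of_nonneg_left h3 (by positivity)
    _ = D * ‖p - q‖ / σ := by field_simp

theorem norm_edge_sub_value_le {F : B → E} {D : ℝ} (hD : 0 ≤ D)
    (hF : ∀ x y, ‖F x - F y‖ ≤ D * ‖x - y‖)
    {e' : B} (he' : ‖e'‖ ≤ 1) (p : B) {σ : ℝ} (hσ : 0 < σ) :
    ‖edge F e' p σ - σ⁻¹ • F p‖ ≤ D := by
  have hc := continuous_of_bound hF
  unfold edge
  have h1 : IntervalIntegrable (fun t : ℝ => F (p + t • e')) MeasureTheory.volume 0 σ :=
    (by fun_prop : Continuous fun t : ℝ => F (p + t • e')).intervalIntegrable _ _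
  have h2 : IntervalIntegrable (fun _ : ℝ => F p) MeasureTheory.volume 0 σ :=
    continuous_const.intervalIntegrable _ _
  have h4 : σ⁻¹ • F p = (σ ^ 2)⁻¹ • ∫ _ in (0 : ℝ)..σ, F p := by
    rw [intervalIntegral.integral_const, sub_zero, smul_smul]
    congr 1
    field_simp
  rw [h4, ← smul_sub, ← intervalIntegral.integral_sub h1 h2, norm_smul]
  have h3 : ‖∫ t in (0 : ℝ)..σ, (F (p + t • e') - F p)‖ ≤ D * σ * |σ - 0| := by
    apply intervalIntegral.norm_integral_le_of_norm_le_const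
    intro t ht
    rw [Set.uIoc_of_le hσ.le] at ht
    refine (hF _ _).trans ?_
    rw [add_sub_cancel_left, norm_smul, Real.norm_eq_abs, abs_of_pos ht.1]
    apply mul_le_mul_of_nonneg_left _ hD
    calc t * ‖e'‖ ≤ t * 1 := mul_le_mul_of_nonneg_left he' ht.1.le
      _ = t := mul_one _
      _ ≤ σ := ht.2
  rw [sub_zero, abs_of_pos hσ] at h3
  rw [Real.norm_eq_abs, abs_of_pos (by positivity)]
  calc (σ ^ 2)⁻¹ * ‖∫ t in (0 : ℝ)..σ, (F (p + t • e') - F p)‖
      ≤ (σ ^ 2)⁻¹ * (D * σ * σ) := mul_le_mul_of_nonneg_left h3 (by positivity)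
    _ = D := by field_simp

end avg

end Crest.Agent.R254
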