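import Crest.Agent.R254.Defs

/-! # Row 254, task M2: the set `K` is compact. -/

set_option autoImplicit false

open Set

namespace Crest.Agent.R254

namespace CompactAux

variable (P : Par)

theorem M_pos (k : ℕ) : 0 < P.M k := by
  unfold Par.M
  have h1 := P.hm k
  have h2 := P.hβ k
  have h3 := P.hN k
  positivity

theorem M_ge (k : ℕ) : 400 ≤ P.M k := by
  unfold Par.M
  have h1 := P.hm k
  have h2 := P.hβ k
  have h3 := P.hN k
  calc 400 = 2 * 1 * 1 * 200 := by norm_num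
    _ ≤ 2 * P.m k * P.β k * P.N k := by gcongr <;> omega

theorem n_pos (k : ℕ) : 0 < P.n k := Finset.prod_pos fun j _ => M_pos P j

theorem s_pos (k : ℕ) : 0 < P.s k := by
  unfold Par.s
  have : (0 : ℝ) < P.n k := by exact_mod_cast n_pos P k
  positivity

theorem r_pos (k : ℕ) : 0 < P.r k := by
  unfold Par.r
  have := s_pos P (k + 1)
  positivity

theorem s_succ_le (k : ℕ) : P.s (k + 1) ≤ P.s k * (1 / 2) := by
  have h1 : P.n (k + 1) = P.n k * P.M k := by
    unfold Par.n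
    rw [Finset.prod_range_succ]
  have h2 : (0 : ℝ) < P.n k := by exact_mod_cast n_pos P k
  have h3 : (400 : ℝ) ≤ P.M k := by exact_mod_cast M_ge P k
  unfold Par.s
  rw [h1]
  push_cast
  rw [div_mul_div_comm, div_le_div_iff₀ (by positivity) (by positivity)]
  nlinarith

theorem s_le (k : ℕ) : P.s k ≤ (1 / 2) ^ k := by
  induction k with
  | zero => simp [Par.s, Par.n]
  | succ k ih =>
    calc P.s (k + 1) ≤ P.s k * (1 / 2) := s_succ_le P k
      _ ≤ (1 / 2) ^ k * (1 / 2) := by gcongr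
      _ = (1 / 2) ^ (k + 1) := by ring

theorem summable_r : Summable P.r := by
  refine Summable.of_nonneg_of_le (fun k => (r_pos P k).le) (fun k => ?_)
    (summable_geometric_of_lt_one (r := (1 / 2 : ℝ)) (by norm_num) (by norm_num))
  unfold Par.r
  have h1 := s_le P (k + 1)
  have h2 := s_pos P (k + 1)
  have h3 : ((1 : ℝ) / 2) ^ (k + 1) = (1 / 2) ^ k * (1 / 2) := pow_succ _ _
  have h4 : (0 : ℝ) < (1 / 2) ^ k := by positivity
  rw [h3] at h1
  linarith

theorem isClosed_strip {w : ℝ} (hw : 0 < w) {m : ℕ} (hm : 0 < m) (i : ℕ) :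
    IsClosed {t : ℝ | Par.strip w m i t} := by
  have h : {t : ℝ | Par.strip w m i t} =
      ⋃ q : ℕ, Icc (((2 * (m * q + i) : ℕ) : ℝ) * w) (((2 * (m * q + i) + 1 : ℕ) : ℝ) * w) := by
    ext t
    simp only [Par.strip, mem_ofPred_eq, mem_iUnion, mem_Icc]
  rw [h]
  refine LocallyFinite.isClosed_iUnion ?_ (fun q => isClosed_Icc)
  intro x
  refine ⟨Iio (x + 1), Iio_mem_nhds (by linarith), ?_⟩
  obtain ⟨Q, hQ⟩ := exists_nat_gt ((x + 1) / w)
  refine (Set.finite_lt_nat Q).subset ?_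
  rintro q ⟨y, hy1, hy2⟩
  have hy1' := hy1.1
  have hy2' : y < x + 1 := hy2
  have h1 : (q : ℝ) * w ≤ y := by
    refine le_trans ?_ hy1'
    gcongr
    have : 1 * q ≤ m * q := Nat.mul_le_mul_right q hm
    omega
  have h2 : (q : ℝ) < Q := by
    refine lt_trans ?_ hQ
    rw [lt_div_iff₀ hw]
    linarith
  simpa using (by exact_mod_cast h2 : q < Q)

theorem isClosed_A (k : ℕ) :
    IsClosed {z : ℝ × ℝ × (ℕ → ℕ) | P.A k (z.2.2 k) z.1 z.2.1} := by
  have h : {z : ℝ × ℝ × (ℕ → ℕ) | P.A k (z.2.2 k) z.1 z.2.1} =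
      {z | z.2.2 k = 0} ∪ ⋃ i ∈ Finset.range (P.m k),
        ({z | z.2.2 k = i + 1} ∩
          ({z | Par.strip (P.s (k + 1)) (P.m k) i z.2.1} ∪
            {z | Par.strip ((P.β k : ℝ) * P.s (k + 1)) (P.m k) i z.1})) := by
    ext z
    simp only [Par.A, mem_ofPred_eq, mem_union, mem_iUnion, Finset.mem_range, mem_inter_iff,
      exists_prop]
    constructor
    · rintro (h | ⟨i, h1, h2, h3⟩)
      · exact Or.inl h
      · exact Or.inr ⟨i, h2, h1, h3⟩
    · rintro (h | ⟨i, h2, h1, h3⟩)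
      · exact Or.inl h
      · exact Or.inr ⟨i, h1, h2, h3⟩
  have hcont : Continuous (fun z : ℝ × ℝ × (ℕ → ℕ) => z.2.2 k) :=
    (continuous_apply k).comp (continuous_snd.comp continuous_snd)
  have hcl : ∀ c : ℕ, IsClosed {z : ℝ × ℝ × (ℕ → ℕ) | z.2.2 k = c} := fun c =>
    isClosed_eq hcont continuous_const
  rw [h]
  refine (hcl 0).union ?_
  refine Set.Finite.isClosed_biUnion (Finset.finite_toSet _) ?_
  intro i _
  refine (hcl (i + 1)).inter (IsClosed.union ?_ ?_)
  · exact (isClosed_strip (s_pos P (k + 1)) (P.hm k) i).preimage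
      (continuous_fst.comp continuous_snd)
  · have hβ : (0 : ℝ) < P.β k := by exact_mod_cast P.hβ k
    exact (isClosed_strip (mul_pos hβ (s_pos P (k + 1))) (P.hm k) i).preimage continuous_fst

end CompactAux

section

variable {B : Type*} [NormedAddCommGroup B] [NormedSpace ℝ B] [CompleteSpace B]
  (P : Par) (V : Vec B)

theorem continuous_pt :
    Continuous (fun z : ℝ × ℝ × (ℕ → ℕ) => pt P V z.1 z.2.1 z.2.2) := by
  unfold pt Phi
  refine Continuous.add (by fun_prop) ?_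
  refine continuous_tsum (u := fun k => 8 * P.r k) (fun k => ?_)
    ((CompactAux.summable_r P).mul_left 8) (fun k z => ?_)
  · have h1 : Continuous (fun c : ℕ => P.r k • V.W c) := continuous_of_discreteTopology
    exact h1.comp ((continuous_apply k).comp (continuous_snd.comp continuous_snd))
  · rw [norm_smul, Real.norm_of_nonneg (CompactAux.r_pos P k).le, mul_comm]
    exact mul_le_mul_of_nonneg_right (V.hW _) (CompactAux.r_pos P k).le

/-- TASK M2. -/
theorem isCompact_K : IsCompact (K P V) := by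
  set C : Set (ℝ × ℝ × (ℕ → ℕ)) :=
    {z | z.1 ∈ Icc (0 : ℝ) 1 ∧ z.2.1 ∈ Icc (0 : ℝ) 1 ∧ ∀ k, P.A k (z.2.2 k) z.1 z.2.1} with hC
  have hCc : IsCompact C := by
    have h1 : IsCompact (Icc (0 : ℝ) 1 ×ˢ (Icc (0 : ℝ) 1 ×ˢ
        Set.pi univ (fun k : ℕ => {c : ℕ | c ≤ P.m k}))) :=
      isCompact_Icc.prod (isCompact_Icc.prod
        (isCompact_univ_pi fun k => (Set.finite_le_nat (P.m k)).isCompact))
    refine h1.of_isClosed_subset ?_ ?_
    · have : C = ({z | z.1 ∈ Icc (0 : ℝ) 1} ∩ {z | z.2.1 ∈ Icc (0 : ℝ) 1}) ∩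
          ⋂ k, {z | P.A k (z.2.2 k) z.1 z.2.1} := by
        ext z
        simp only [hC, mem_ofPred_eq, mem_inter_iff, mem_iInter, and_assoc]
      rw [this]
      refine IsClosed.inter (IsClosed.inter ?_ ?_) (isClosed_iInter fun k => ?_)
      · exact isClosed_Icc.preimage continuous_fst
      · exact isClosed_Icc.preimage (continuous_fst.comp continuous_snd)
      · exact CompactAux.isClosed_A P k
    · rintro ⟨x, t, ζ⟩ ⟨hx, ht, hζ⟩
      refine ⟨hx, ht, ?_⟩
      intro k _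
      rcases hζ k with h | ⟨i, h1, h2, _⟩
      · have h' : ζ k = 0 := h
        show ζ k ≤ P.m k
        omega
      · have h' : ζ k = i + 1 := h1
        show ζ k ≤ P.m k
        omega
  have hK : K P V = (fun z : ℝ × ℝ × (ℕ → ℕ) => pt P V z.1 z.2.1 z.2.2) '' C := by
    ext p
    constructor
    · rintro ⟨x, t, ζ, hx, ht, hζ, rfl⟩
      exact ⟨(x, t, ζ), ⟨hx, ht, hζ⟩, rfl⟩
    · rintro ⟨⟨x, t, ζ⟩, ⟨hx, ht, hζ⟩, rfl⟩
      exact ⟨x, t, ζ, hx, ht, hζ, rfl⟩
  rw [hK]
  exact hCc.image (continuous_pt P V)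

end

end Crest.Agent.R254
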