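import Mathlib
import Crest.Prelude.Def_Doubling

/-!
# Row 254: definitions (blueprint: notes of rid 254)

Parameters of the levels, the vectors in the Banach space, the compact set `K`, good squares,
and the averaged slopes `avg`.
-/

set_option autoImplicit false

open Set

namespace Crest.Agent.R254

/-- Level parameters. -/
structure Par where
  m : ℕ → ℕ
  β : ℕ → ℕ
  N : ℕ → ℕ
  hm : ∀ k, 0 < m k
  hβ : ∀ k, 0 < β k
  hN : ∀ k, 200 ≤ N k

namespace Par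

variable (P : Par)

/-- ratio `s k / s (k+1)` -/
def M (k : ℕ) : ℕ := 2 * P.m k * P.β k * P.N k

/-- `1 / s k` -/
def n (k : ℕ) : ℕ := ∏ j ∈ Finset.range k, P.M j

/-- side of the level `k` squares -/
noncomputable def s (k : ℕ) : ℝ := 1 / (P.n k : ℝ)

/-- size of the displacement at level `k` -/
noncomputable def r (k : ℕ) : ℝ := P.s (k + 1) / 20000

/-- Strips of width `w`, with index `i` modulo `m`, separated by gaps of width `w`. -/
def strip (w : ℝ) (m i : ℕ) (t : ℝ) : Prop :=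
  ∃ q : ℕ, ((2 * (m * q + i) : ℕ) : ℝ) * w ≤ t ∧ t ≤ ((2 * (m * q + i) + 1 : ℕ) : ℝ) * w

/-- Label `c` is allowed at level `k` at the position `(x, t)`. -/
def A (k c : ℕ) (x t : ℝ) : Prop :=
  c = 0 ∨ ∃ i, c = i + 1 ∧ i < P.m k ∧
    (strip (P.s (k + 1)) (P.m k) i t ∨ strip ((P.β k : ℝ) * P.s (k + 1)) (P.m k) i x)

/-- every type occurs at arbitrarily deep levels -/
def Rich : Prop := ∀ m β N K : ℕ, 0 < m → 0 < β → 200 ≤ N →
  ∃ k, K ≤ k ∧ P.m k = m ∧ P.β k = β ∧ P.N k = N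

end Par

/-- The vectors used in the Banach space. -/
structure Vec (B : Type*) [NormedAddCommGroup B] [NormedSpace ℝ B] where
  e1 : B
  e2 : B
  W : ℕ → B
  he1 : ‖e1‖ ≤ 1
  he2 : ‖e2‖ ≤ 1
  hW0 : W 0 = 0
  hW : ∀ a, ‖W a‖ ≤ 8
  h12 : ∀ x t : ℝ, max |x| |t| ≤ 3 * ‖x • e1 + t • e2‖
  hsep : ∀ a b, a ≠ b → ∀ x t : ℝ, 1 ≤ ‖x • e1 + t • e2 + (W a - W b)‖

section

variable {B : Type*} [NormedAddCommGroup B] [NormedSpace ℝ B] (P : Par) (V : Vec B)

/-- total displacement of a label sequence -/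
noncomputable def Phi (ζ : ℕ → ℕ) : B := ∑' k, P.r k • V.W (ζ k)

/-- the point with plane coordinates `(x, t)` and labels `ζ` -/
noncomputable def pt (x t : ℝ) (ζ : ℕ → ℕ) : B := x • V.e1 + t • V.e2 + Phi P V ζ

/-- the compact doubling set -/
def K : Set B :=
  {p | ∃ (x t : ℝ) (ζ : ℕ → ℕ), x ∈ Icc (0 : ℝ) 1 ∧ t ∈ Icc (0 : ℝ) 1 ∧
    (∀ k, P.A k (ζ k) x t) ∧ p = pt P V x t ζ}

/-- `p` is the lower left corner of a level `k` square contained in `K`, with labels `0`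
from level `k` on. -/
def Good (k : ℕ) (p : B) : Prop :=
  ∃ (ζ : ℕ → ℕ) (a b : ℕ), (∀ j, k ≤ j → ζ j = 0) ∧ a + 1 ≤ P.n k ∧ b + 1 ≤ P.n k ∧
    p = pt P V ((a : ℝ) * P.s k) ((b : ℝ) * P.s k) ζ ∧
    ∀ j, j < k → ∀ x ∈ Icc ((a : ℝ) * P.s k) (((a : ℝ) + 1) * P.s k),
      ∀ t ∈ Icc ((b : ℝ) * P.s k) (((b : ℝ) + 1) * P.s k), P.A j (ζ j) x t

end

section avg

variable {B : Type*} [NormedAddCommGroup B] [NormedSpace ℝ B]
  {E : Type*} [NormedAddCommGroup E] [NormedSpace ℝ E]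

/-- averaged slope of `F` in direction `e` over the square with corner `p`, sides `s e`, `s e'` -/
noncomputable def avg (F : B → E) (e e' p : B) (s : ℝ) : E :=
  (s ^ 2)⁻¹ • ((∫ t in (0 : ℝ)..s, F (p + s • e + t • e')) - ∫ t in (0 : ℝ)..s, F (p + t • e'))

end avg

end Crest.Agent.R254
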