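import Crest.Agent.R254.Defs

/-! # Row 254, task P: lemmas about the level parameters -/

set_option autoImplicit false

open Set Finset

namespace Crest.Agent.R254

section par
variable (P : Par)

theorem Par.M_pos (k : ℕ) : 0 < P.M k := by
  have h1 := P.hm k
  have h2 := P.hβ k
  have h3 : 0 < P.N k := lt_of_lt_of_le (by norm_num) (P.hN k)
  unfold Par.M
  positivity

theorem Par.M_ge (k : ℕ) : 400 ≤ P.M k := by
  have h1 := P.hm k
  have h2 := P.hβ k
  have h3 := P.hN k
  unfold Par.M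
  calc 400 = 2 * 1 * 1 * 200 := by norm_num
    _ ≤ 2 * P.m k * P.β k * P.N k := by gcongr <;> omega

theorem Par.n_pos (k : ℕ) : 0 < P.n k := by
  unfold Par.n
  exact Finset.prod_pos fun j _ => P.M_pos j

theorem Par.n_zero : P.n 0 = 1 := by simp [Par.n]

theorem Par.n_succ (k : ℕ) : P.n (k + 1) = P.n k * P.M k := by
  unfold Par.n
  rw [Finset.prod_range_succ]

theorem Par.n_dvd {k l : ℕ} (h : k ≤ l) : P.n k ∣ P.n l := by
  induction h with
  | refl => exact dvd_rfl
  | step _ ih =>
    refine ih.trans ?_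
    rw [Par.n_succ]
    exact dvd_mul_right _ _

theorem Par.s_pos (k : ℕ) : 0 < P.s k := by
  unfold Par.s
  have := P.n_pos k
  positivity

theorem Par.s_zero : P.s 0 = 1 := by
  unfold Par.s
  rw [Par.n_zero]
  norm_num

/-- if `n l = n k * c` then `s k = c * s l` -/
theorem Par.s_eq_mul {k l c : ℕ} (h : P.n l = P.n k * c) : P.s k = (c : ℝ) * P.s l := by
  have hl : 0 < P.n l := P.n_pos l
  have hk : 0 < P.n k := P.n_pos k
  have hc : 0 < c := by
    rcases Nat.eq_zero_or_pos c with h0 | h0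
    · subst h0; simp at h; omega
    · exact h0
  have hkr : (P.n k : ℝ) ≠ 0 := by positivity
  have hcr : (c : ℝ) ≠ 0 := by positivity
  unfold Par.s
  rw [h]
  push_cast
  field_simp

theorem Par.s_succ (k : ℕ) : P.s k = (P.M k : ℝ) * P.s (k + 1) :=
  P.s_eq_mul (P.n_succ k)

theorem Par.r_pos (k : ℕ) : 0 < P.r k := by
  unfold Par.r
  have := P.s_pos (k + 1)
  positivity

theorem Par.r_succ_le (k : ℕ) : P.r (k + 1) ≤ P.r k / 400 := by
  unfold Par.r
  have h1 := P.s_succ (k + 1)
  have h2 := P.s_pos (k + 1 + 1)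
  have h3 : (400 : ℝ) ≤ (P.M (k + 1) : ℝ) := by exact_mod_cast P.M_ge (k + 1)
  have h4 : 400 * P.s (k + 1 + 1) ≤ P.s (k + 1) := by
    rw [h1]; exact mul_le_mul_of_nonneg_right h3 h2.le
  linarith

theorem Par.r_lt_of_lt {j k : ℕ} (h : j < k) : 400 * P.r k ≤ P.r j := by
  induction k with
  | zero => omega
  | succ k ih =>
    have h1 := P.r_succ_le k
    have h2 := P.r_pos k
    have h3 := P.r_pos (k + 1)
    rcases Nat.lt_succ_iff_lt_or_eq.1 h with h4 | h4
    · have := ih h4
      linarith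
    · subst h4; linarith

theorem Par.r_add_le (k j : ℕ) : P.r (k + j) ≤ P.r k * (1 / 400 : ℝ) ^ j := by
  induction j with
  | zero => simp
  | succ j ih =>
    have h1 := P.r_succ_le (k + j)
    calc P.r (k + (j + 1)) ≤ P.r (k + j) / 400 := h1
      _ ≤ P.r k * (1 / 400 : ℝ) ^ j / 400 := by linarith
      _ = P.r k * (1 / 400 : ℝ) ^ (j + 1) := by rw [pow_succ]; ring

theorem Par.summable_r_add (k : ℕ) : Summable (fun j => P.r (k + j)) := by
  refine Summable.of_nonneg_of_le (fun j => (P.r_pos _).le) (fun j => P.r_add_le k j) ?_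
  exact (summable_geometric_of_lt_one (by norm_num) (by norm_num)).mul_left _

theorem Par.summable_r : Summable P.r := by
  have := P.summable_r_add 0
  simpa using this

theorem Par.tsum_r_tail (k : ℕ) : ∑' j, P.r (k + j) ≤ (400 / 399) * P.r k := by
  have h1 : ∑' j, P.r (k + j) ≤ ∑' j, P.r k * (1 / 400 : ℝ) ^ j := by
    refine Summable.tsum_le_tsum (fun j => P.r_add_le k j) (P.summable_r_add k) ?_
    exact (summable_geometric_of_lt_one (by norm_num) (by norm_num)).mul_left _
  rw [tsum_mul_left, tsum_geometric_of_lt_one (by norm_num) (by norm_num)] at h1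
  refine h1.trans (le_of_eq ?_)
  norm_num
  ring

theorem Par.tendsto_r : Filter.Tendsto P.r Filter.atTop (nhds 0) :=
  P.summable_r.tendsto_atTop_zero

theorem Par.n_ge (k j : ℕ) : P.n k * (j + 1) ≤ P.n (k + j) := by
  induction j with
  | zero => simp
  | succ j ih =>
    have h1 := P.n_succ (k + j)
    have h2 := P.M_ge (k + j)
    have h3 := P.n_pos k
    calc P.n k * (j + 1 + 1) ≤ P.n k * (j + 1) * 400 := by nlinarith
      _ ≤ P.n (k + j) * P.M (k + j) := by gcongr
      _ = P.n (k + (j + 1)) := h1.symm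

/-- deep levels have large ratio -/
theorem Par.exists_n_ge (k U : ℕ) : ∃ L, ∀ l, L ≤ l → U * P.n k ≤ P.n l := by
  refine ⟨k + U, fun l hl => ?_⟩
  obtain ⟨j, rfl⟩ := Nat.exists_eq_add_of_le (show k ≤ l by omega)
  have h1 := P.n_ge k j
  have h2 : U ≤ j + 1 := by omega
  calc U * P.n k ≤ (j + 1) * P.n k := by gcongr
    _ = P.n k * (j + 1) := by ring
    _ ≤ _ := h1

end par

theorem exists_rich : ∃ P : Par, P.Rich := by
  refine ⟨⟨fun k => k.unpair.1.unpair.1.unpair.1 + 1, fun k => k.unpair.1.unpair.1.unpair.2 + 1,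
    fun k => k.unpair.1.unpair.2 + 200, fun k => by omega, fun k => by omega,
    fun k => by omega⟩, ?_⟩
  intro m β N K hm hβ hN
  refine ⟨Nat.pair (Nat.pair (Nat.pair (m - 1) (β - 1)) (N - 200)) K, Nat.right_le_pair _ _,
    ?_, ?_, ?_⟩
  · simp only [Nat.unpair_pair]; omega
  · simp only [Nat.unpair_pair]; omega
  · simp only [Nat.unpair_pair]; omega

end Crest.Agent.R254
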