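import Crest.Agent.R254.Metric
import Crest.Agent.R254.ParLemmas

/-! # Row 254, task M3: the set `K` is doubling with a universal constant -/

set_option autoImplicit false

open Set Finset Module

namespace Crest.Agent.R254

/-- at most one index of a family of strips of width `w` is visible in an interval of length
less than `w` -/
theorem strip_unique {w : ℝ} (hw : 0 < w) {m i i' : ℕ} (hi : i < m) (hi' : i' < m) {t t' : ℝ}
    (h : Par.strip w m i t) (h' : Par.strip w m i' t') (hd : |t - t'| < w) : i = i' := by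
  obtain ⟨q, h1, h2⟩ := h
  obtain ⟨q', h1', h2'⟩ := h'
  rw [abs_lt] at hd
  have e1 : m * q + i ≤ m * q' + i' := by
    have : ((2 * (m * q + i) : ℕ) : ℝ) * w < ((2 * (m * q' + i') + 1 + 1 : ℕ) : ℝ) * w := by
      have : ((2 * (m * q' + i') + 1 + 1 : ℕ) : ℝ) * w
          = ((2 * (m * q' + i') + 1 : ℕ) : ℝ) * w + w := by push_cast; ring
      rw [this]
      linarith
    have := lt_of_mul_lt_mul_right this hw.le
    have := Nat.cast_lt.1 this
    omega
  have e2 : m * q' + i' ≤ m * q + i := by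
    have : ((2 * (m * q' + i') : ℕ) : ℝ) * w < ((2 * (m * q + i) + 1 + 1 : ℕ) : ℝ) * w := by
      have : ((2 * (m * q + i) + 1 + 1 : ℕ) : ℝ) * w
          = ((2 * (m * q + i) + 1 : ℕ) : ℝ) * w + w := by push_cast; ring
      rw [this]
      linarith
    have := lt_of_mul_lt_mul_right this hw.le
    have := Nat.cast_lt.1 this
    omega
  have e3 : m * q + i = m * q' + i' := le_antisymm e1 e2
  have e4 := congrArg (· % m) e3
  simp only [Nat.mul_add_mod, Nat.mod_eq_of_lt hi, Nat.mod_eq_of_lt hi'] at e4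
  exact e4

/-- covering by classes -/
theorem exists_cover_of_class {X : Type*} [PseudoMetricSpace X] {S T : Set X} (hT : T ⊆ S)
    {ι : Type*} (I : Finset ι) (cls : X → ι) (h1 : ∀ p ∈ T, cls p ∈ I) {r : ℝ}
    (h2 : ∀ p ∈ T, ∀ q ∈ T, cls p = cls q → dist p q ≤ r) :
    ∃ C : Finset X, (↑C : Set X) ⊆ S ∧ C.card ≤ I.card ∧ T ⊆ ⋃ c ∈ C, Metric.closedBall c r := by
  classical
  by_cases hne : Nonempty X
  · let rep : ι → X := fun i => if h : ∃ p, p ∈ T ∧ cls p = i then Classical.choose h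
      else Classical.choice hne
    have hrep : ∀ p ∈ T, rep (cls p) ∈ T ∧ cls (rep (cls p)) = cls p := by
      intro p hp
      have hex : ∃ q, q ∈ T ∧ cls q = cls p := ⟨p, hp, rfl⟩
      have : rep (cls p) = Classical.choose hex := dif_pos hex
      rw [this]
      exact Classical.choose_spec hex
    refine ⟨(I.filter fun i => ∃ p, p ∈ T ∧ cls p = i).image rep, ?_, ?_, ?_⟩
    · intro x hx
      rw [Finset.mem_coe, Finset.mem_image] at hx
      obtain ⟨i, hi, rfl⟩ := hx
      obtain ⟨p, hp, rfl⟩ := (Finset.mem_filter.1 hi).2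
      exact hT (hrep p hp).1
    · exact Finset.card_image_le.trans (Finset.card_filter_le _ _)
    · intro p hp
      simp only [Set.mem_iUnion]
      refine ⟨rep (cls p), Finset.mem_image_of_mem _ (Finset.mem_filter.2 ⟨h1 p hp, p, hp, rfl⟩), ?_⟩
      exact h2 p hp _ (hrep p hp).1 (hrep p hp).2.symm
  · refine ⟨∅, by simp, by simp, ?_⟩
    intro p _
    exact absurd ⟨p⟩ hne

theorem abs_sub_lt_of_floor_eq {a b c h : ℝ} (hh : 0 < h)
    (he : ⌊(a - c) / h⌋ = ⌊(b - c) / h⌋) : |a - b| < h := by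
  have h1 := Int.abs_sub_lt_one_of_floor_eq_floor he
  have : (a - c) / h - (b - c) / h = (a - b) / h := by ring
  rw [this, abs_div, abs_of_pos hh, div_lt_one hh] at h1
  exact h1

section metric
variable {B : Type*} [NormedAddCommGroup B] [NormedSpace ℝ B] [CompleteSpace B]
  (P : Par) (V : Vec B)

theorem doubling_K :
    Crest.GeometryTopology.DoublingConstLE (K P V) 10000000 := by
  classical
  intro p0 hp0 R hR
  obtain ⟨x0, t0, ζ0, hx0, ht0, hA0, rfl⟩ := hp0
  -- coordinates of the points of `K`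
  have hrep : ∀ p : B, ∃ a : ℝ × ℝ × (ℕ → ℕ), p ∈ K P V →
      a.1 ∈ Icc (0 : ℝ) 1 ∧ a.2.1 ∈ Icc (0 : ℝ) 1 ∧ (∀ k, P.A k (a.2.2 k) a.1 a.2.1) ∧
        p = pt P V a.1 a.2.1 a.2.2 := by
    intro p
    by_cases hp : p ∈ K P V
    · obtain ⟨x, t, ζ, h1, h2, h3, h4⟩ := hp
      exact ⟨(x, t, ζ), fun _ => ⟨h1, h2, h3, h4⟩⟩
    · exact ⟨(0, 0, fun _ => 0), fun h => absurd h hp⟩
  choose co hco using hrep
  set T : Set B := K P V ∩ Metric.closedBall (pt P V x0 t0 ζ0) (2 * R) with hTdef
  have hdist : ∀ p ∈ T, ‖pt P V (co p).1 (co p).2.1 (co p).2.2 - pt P V x0 t0 ζ0‖ ≤ 2 * R := by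
    intro p hp
    rw [← (hco p hp.1).2.2.2, ← dist_eq_norm]
    exact hp.2
  have hcoord : ∀ p ∈ T, |(co p).1 - x0| ≤ 210 * R ∧ |(co p).2.1 - t0| ≤ 210 * R := by
    intro p hp
    have h1 := coord_le_dist P V (co p).2.2 ζ0 (co p).1 (co p).2.1 x0 t0
    have h2 := hdist p hp
    constructor
    · exact (le_max_left _ _).trans (h1.trans (by linarith))
    · exact (le_max_right _ _).trans (h1.trans (by linarith))
  -- the scale
  have hex : ∃ k, 34 * P.r k ≤ R := by
    have h1 : ∀ᶠ k in Filter.atTop, P.r k < R / 34 :=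
      P.tendsto_r.eventually (gt_mem_nhds (by positivity))
    obtain ⟨k, hk⟩ := h1.exists
    exact ⟨k, by linarith⟩
  set k := Nat.find hex with hk
  have hkR : 34 * P.r k ≤ R := Nat.find_spec hex
  -- labels below level `k - 1` agree
  have hlow : ∀ p ∈ T, ∀ j, j + 1 < k → (co p).2.2 j = ζ0 j := by
    intro p hp j hj
    by_contra hne
    have hex2 : ∃ j, (co p).2.2 j ≠ ζ0 j := ⟨j, hne⟩
    have h1 := r_le_dist P V (ζ := (co p).2.2) (ζ' := ζ0) (k := Nat.find hex2)
      (fun i hi => by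
        have := Nat.find_min hex2 hi
        exact not_not.1 this) (Nat.find_spec hex2) (co p).1 (co p).2.1 x0 t0
    have h2 := hdist p hp
    have h3 : Nat.find hex2 ≤ j := Nat.find_min' hex2 hne
    have h4 : ¬ 34 * P.r (k - 1) ≤ R := Nat.find_min hex (by omega)
    have h5 := P.r_lt_of_lt (show Nat.find hex2 < k - 1 by omega)
    have h6 := P.r_pos (k - 1)
    push Not at h4
    linarith
  -- the labels at level `k - 1`
  have hlab : ∃ Lb : Finset ℕ, Lb.card ≤ 3 ∧
      ∀ p ∈ T, (if k = 0 then 0 else (co p).2.2 (k - 1)) ∈ Lb := by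
    by_cases hk0 : k = 0
    · refine ⟨{0}, by simp, ?_⟩
      intro p _
      rw [if_pos hk0]
      simp
    · have h4 : ¬ 34 * P.r (k - 1) ≤ R := Nat.find_min hex (by omega)
      push Not at h4
      have hkk : k - 1 + 1 = k := by omega
      have hu : P.r (k - 1) = P.s k / 20000 := by
        rw [Par.r, hkk]
      have hs := P.s_pos k
      have hβ : (1 : ℝ) ≤ (P.β (k - 1) : ℝ) := by exact_mod_cast P.hβ (k - 1)
      have hβs : P.s k ≤ (P.β (k - 1) : ℝ) * P.s k := le_mul_of_one_le_left hs.le hβ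
      have hRs : 420 * R < P.s k := by
        rw [hu] at h4
        linarith
      have habs : ∀ {a b c : ℝ}, |a - c| ≤ 210 * R → |b - c| ≤ 210 * R → |a - b| < P.s k := by
        intro a b c h1 h2
        have : |a - b| ≤ |a - c| + |b - c| := by
          have : a - b = (a - c) - (b - c) := by ring
          rw [this]
          exact abs_sub _ _
        linarith
      -- the label visible through the horizontal strips
      have hct : ∃ ct : ℕ, ∀ p ∈ T, ∀ i, i < P.m (k - 1) →
          Par.strip (P.s k) (P.m (k - 1)) i (co p).2.1 → i + 1 = ct := by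
        by_cases h : ∃ p ∈ T, ∃ i, i < P.m (k - 1) ∧
          Par.strip (P.s k) (P.m (k - 1)) i (co p).2.1
        · obtain ⟨p, hp, i, hi, hst⟩ := h
          refine ⟨i + 1, fun q hq j hj hst' => ?_⟩
          rw [strip_unique hs hj hi hst' hst (habs (hcoord q hq).2 (hcoord p hp).2)]
        · refine ⟨0, fun q hq j hj hst' => absurd ⟨q, hq, j, hj, hst'⟩ h⟩
      have hcx : ∃ cx : ℕ, ∀ p ∈ T, ∀ i, i < P.m (k - 1) →
          Par.strip ((P.β (k - 1) : ℝ) * P.s k) (P.m (k - 1)) i (co p).1 → i + 1 = cx := by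
        by_cases h : ∃ p ∈ T, ∃ i, i < P.m (k - 1) ∧
          Par.strip ((P.β (k - 1) : ℝ) * P.s k) (P.m (k - 1)) i (co p).1
        · obtain ⟨p, hp, i, hi, hst⟩ := h
          refine ⟨i + 1, fun q hq j hj hst' => ?_⟩
          rw [strip_unique (lt_of_lt_of_le hs hβs) hj hi hst' hst
            (lt_of_lt_of_le (habs (hcoord q hq).1 (hcoord p hp).1) hβs)]
        · refine ⟨0, fun q hq j hj hst' => absurd ⟨q, hq, j, hj, hst'⟩ h⟩
      obtain ⟨ct, hct⟩ := hct
      obtain ⟨cx, hcx⟩ := hcx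
      refine ⟨{0, ct, cx}, Finset.card_le_three, ?_⟩
      intro p hp
      rw [if_neg hk0]
      have hA := (hco p hp.1).2.2.1 (k - 1)
      simp only [Finset.mem_insert, Finset.mem_singleton]
      rcases hA with h0 | ⟨i, hci, hi, hst⟩
      · exact Or.inl h0
      · rw [hkk] at hst
        right
        rw [hci]
        rcases hst with hst | hst
        · exact Or.inl (hct p hp i hi hst)
        · exact Or.inr (hcx p hp i hi hst)
  obtain ⟨Lb, hLb3, hLb⟩ := hlab
  have hR4 : 0 < R / 4 := by positivity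
  obtain ⟨J, hJ⟩ : ∃ J : Finset ℤ, J = Finset.Icc (-840 : ℤ) 840 := ⟨_, rfl⟩
  suffices hsuff : ∃ C : Finset B, (↑C : Set B) ⊆ K P V ∧
      C.card ≤ (Lb ×ˢ (J ×ˢ J)).card ∧
      T ⊆ ⋃ c ∈ C, Metric.closedBall c R by
    obtain ⟨C, hC1, hC2, hC3⟩ := hsuff
    refine ⟨C, hC1, hC2.trans ?_, hC3⟩
    rw [Finset.card_product, Finset.card_product]
    have : J.card = 1681 := by rw [hJ]; simp
    rw [this]
    calc Lb.card * (1681 * 1681) ≤ 3 * (1681 * 1681) := Nat.mul_le_mul_right _ hLb3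
      _ ≤ 10000000 := by norm_num
  refine exists_cover_of_class (S := K P V) (T := T) Set.inter_subset_left
    (Lb ×ˢ (J ×ˢ J))
    (fun p => (if k = 0 then 0 else (co p).2.2 (k - 1),
      ⌊((co p).1 - x0) / (R / 4)⌋, ⌊((co p).2.1 - t0) / (R / 4)⌋))
    (r := R) ?_ ?_
  · intro p hp
    have hfl : ∀ a : ℝ, |a| ≤ 210 * R → ⌊a / (R / 4)⌋ ∈ J := by
      intro a ha
      rw [abs_le] at ha
      rw [hJ, Finset.mem_Icc]
      constructor
      · rw [Int.le_floor, le_div_iff₀ hR4]
        push_cast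
        linarith [ha.1]
      · have h1 : a / (R / 4) ≤ 840 := by
          rw [div_le_iff₀ hR4]
          linarith [ha.2]
        have h2 : (⌊a / (R / 4)⌋ : ℝ) ≤ 840 := (Int.floor_le _).trans h1
        exact_mod_cast h2
    exact Finset.mem_product.2 ⟨hLb p hp, Finset.mem_product.2
      ⟨hfl _ (hcoord p hp).1, hfl _ (hcoord p hp).2⟩⟩
  · intro p hp q hq hpq
    simp only [Prod.mk.injEq] at hpq
    obtain ⟨h1, h2, h3⟩ := hpq
    have hx := abs_sub_lt_of_floor_eq hR4 h2
    have ht := abs_sub_lt_of_floor_eq hR4 h3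
    have hlabs : ∀ j, j < k → (co p).2.2 j = (co q).2.2 j := by
      intro j hj
      by_cases hjk : j + 1 < k
      · rw [hlow p hp j hjk, hlow q hq j hjk]
      · have hj' : j = k - 1 := by omega
        have hk0 : k ≠ 0 := by omega
        rw [if_neg hk0, if_neg hk0] at h1
        rw [hj']
        exact h1
    have hPhi := norm_Phi_sub_le P V hlabs
    rw [dist_eq_norm]
    conv_lhs => rw [(hco p hp.1).2.2.2, (hco q hq.1).2.2.2]
    have e : pt P V (co p).1 (co p).2.1 (co p).2.2 - pt P V (co q).1 (co q).2.1 (co q).2.2 =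
        ((co p).1 - (co q).1) • V.e1 + ((co p).2.1 - (co q).2.1) • V.e2 +
          (Phi P V (co p).2.2 - Phi P V (co q).2.2) := by
      simp only [pt, sub_smul]
      abel
    rw [e]
    have n1 : ‖((co p).1 - (co q).1) • V.e1‖ ≤ R / 4 := by
      rw [norm_smul, Real.norm_eq_abs]
      calc |(co p).1 - (co q).1| * ‖V.e1‖ ≤ |(co p).1 - (co q).1| * 1 :=
            mul_le_mul_of_nonneg_left V.he1 (abs_nonneg _)
        _ ≤ R / 4 := by rw [mul_one]; exact hx.le
    have n2 : ‖((co p).2.1 - (co q).2.1) • V.e2‖ ≤ R / 4 := by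
      rw [norm_smul, Real.norm_eq_abs]
      calc |(co p).2.1 - (co q).2.1| * ‖V.e2‖ ≤ |(co p).2.1 - (co q).2.1| * 1 :=
            mul_le_mul_of_nonneg_left V.he2 (abs_nonneg _)
        _ ≤ R / 4 := by rw [mul_one]; exact ht.le
    calc ‖((co p).1 - (co q).1) • V.e1 + ((co p).2.1 - (co q).2.1) • V.e2 +
          (Phi P V (co p).2.2 - Phi P V (co q).2.2)‖
        ≤ ‖((co p).1 - (co q).1) • V.e1‖ + ‖((co p).2.1 - (co q).2.1) • V.e2‖ +
          ‖Phi P V (co p).2.2 - Phi P V (co q).2.2‖ := norm_add₃_le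
      _ ≤ R := by linarith

end metric

end Crest.Agent.R254
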