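import Crest.Agent.R254.Metric

/-!
# Row 254, Task G: good squares
-/

set_option autoImplicit false

open Set Finset Module

namespace Crest.Agent.R254

theorem Phi_zero {B : Type*} [NormedAddCommGroup B] [NormedSpace ℝ B] (P : Par) (V : Vec B) :
    Phi P V (fun _ => 0) = 0 := by
  unfold Phi
  simp [V.hW0]

section good
variable {B : Type*} [NormedAddCommGroup B] [NormedSpace ℝ B] [CompleteSpace B]
  (P : Par) (V : Vec B)

theorem Phi_update (ζ : ℕ → ℕ) (k c : ℕ) (hk : ζ k = 0) :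
    Phi P V (Function.update ζ k c) = Phi P V ζ + P.r k • V.W c := by
  have h := Phi_sub_Phi P V (Function.update ζ k c) ζ
  rw [tsum_eq_single k] at h
  · rw [Function.update_self, hk, V.hW0, sub_zero] at h
    rw [← h]
    abel
  · intro j hj
    rw [Function.update_of_ne hj, sub_self, smul_zero]

omit [CompleteSpace B] in
theorem good_zero : Good P V 0 (0 : B) := by
  refine ⟨fun _ => 0, 0, 0, fun _ _ => rfl, ?_, ?_, ?_, ?_⟩
  · rw [P.n_zero]
  · rw [P.n_zero]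
  · unfold pt
    rw [Phi_zero]
    simp
  · intro j hj
    exact absurd hj (Nat.not_lt_zero j)

theorem Par.n_mul_s (k : ℕ) : (P.n k : ℝ) * P.s k = 1 := by
  have h : (0 : ℝ) < P.n k := by exact_mod_cast P.n_pos k
  unfold Par.s
  field_simp

theorem Par.mul_s_mem {k a : ℕ} (ha : a + 1 ≤ P.n k) : (a : ℝ) * P.s k ∈ Icc (0 : ℝ) 1 := by
  have hs := P.s_pos k
  have h1 := P.n_mul_s k
  refine ⟨by positivity, ?_⟩
  rw [← h1]
  have : (a : ℝ) ≤ P.n k := by exact_mod_cast (Nat.le_of_succ_le ha)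
  exact mul_le_mul_of_nonneg_right this hs.le

omit [CompleteSpace B] in
theorem Good.mem {k : ℕ} {p : B} (h : Good P V k p) : p ∈ K P V := by
  obtain ⟨ζ, a, b, h0, ha, hb, hp, hA⟩ := h
  have hs := P.s_pos k
  refine ⟨(a : ℝ) * P.s k, (b : ℝ) * P.s k, ζ, P.mul_s_mem ha, P.mul_s_mem hb, ?_, hp⟩
  intro j
  rcases lt_or_ge j k with hj | hj
  · refine hA j hj _ ⟨le_rfl, ?_⟩ _ ⟨le_rfl, ?_⟩ <;> nlinarith
  · exact Or.inl (h0 j hj)

omit [CompleteSpace B] in
theorem Good.sub {k l c : ℕ} {p : B} (h : Good P V k p) (hkl : k ≤ l)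
    (hc : P.n l = P.n k * c) {a b : ℕ} (ha : a < c) (hb : b < c) :
    Good P V l (p + ((a : ℝ) * P.s l) • V.e1 + ((b : ℝ) * P.s l) • V.e2) := by
  obtain ⟨ζ, a0, b0, h0, ha0, hb0, hp, hA⟩ := h
  have hsk := P.s_pos k
  have hsl := P.s_pos l
  have hkc := P.s_eq_mul hc
  have hbound : ∀ {a0 a : ℕ}, a0 + 1 ≤ P.n k → a < c → a0 * c + a + 1 ≤ P.n l := by
    intro a0 a ha0 ha
    rw [hc]
    calc a0 * c + a + 1 ≤ a0 * c + c := by omega
      _ = (a0 + 1) * c := by ring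
      _ ≤ P.n k * c := Nat.mul_le_mul_right _ ha0
  have hcell : ∀ {a0 a : ℕ} {x : ℝ}, a < c →
      x ∈ Icc (((a0 * c + a : ℕ) : ℝ) * P.s l) ((((a0 * c + a : ℕ) : ℝ) + 1) * P.s l) →
      x ∈ Icc ((a0 : ℝ) * P.s k) (((a0 : ℝ) + 1) * P.s k) := by
    intro a0 a x ha hx
    have hac : ((a : ℝ) + 1) ≤ c := by exact_mod_cast ha
    have ha' : (0 : ℝ) ≤ a := by positivity
    rw [hkc]
    push_cast at hx
    obtain ⟨h1, h2⟩ := hx
    constructor
    · nlinarith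
    · nlinarith
  refine ⟨ζ, a0 * c + a, b0 * c + b, fun j hj => h0 j (hkl.trans hj), hbound ha0 ha,
    hbound hb0 hb, ?_, ?_⟩
  · rw [hp]
    unfold pt
    push_cast
    rw [hkc, add_mul, add_mul, add_smul, add_smul, mul_assoc, mul_assoc]
    abel
  · intro j hj x hx t ht
    rcases lt_or_ge j k with hjk | hjk
    · exact hA j hjk x (hcell ha hx) t (hcell hb ht)
    · exact Or.inl (h0 j hjk)

theorem Good.disp_aux {k l U : ℕ} {p : B} (h : Good P V k p) (hkl : k < l)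
    (hU : P.n l = P.n (k + 1) * U) {c a b : ℕ}
    (ha : a < P.M k * U) (hb : b < P.M k * U)
    (hA' : ∀ a0 b0 : ℕ,
      ∀ x ∈ Icc ((a0 : ℝ) * P.s k + (a : ℝ) * P.s l) ((a0 : ℝ) * P.s k + ((a : ℝ) + 1) * P.s l),
      ∀ t ∈ Icc ((b0 : ℝ) * P.s k + (b : ℝ) * P.s l) ((b0 : ℝ) * P.s k + ((b : ℝ) + 1) * P.s l),
        P.A k c x t) :
    Good P V l (p + P.r k • V.W c + ((a : ℝ) * P.s l) • V.e1 + ((b : ℝ) * P.s l) • V.e2) := by
  obtain ⟨ζ, a0, b0, h0, ha0, hb0, hp, hA⟩ := h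
  have hsk := P.s_pos k
  have hsl := P.s_pos l
  have hc : P.n l = P.n k * (P.M k * U) := by rw [hU, P.n_succ]; ring
  have hkc := P.s_eq_mul hc
  generalize hC : P.M k * U = C at *
  have hbound : ∀ {a0 a : ℕ}, a0 + 1 ≤ P.n k → a < C → a0 * C + a + 1 ≤ P.n l := by
    intro a0 a ha0 ha
    rw [hc]
    calc a0 * C + a + 1 ≤ a0 * C + C := by omega
      _ = (a0 + 1) * C := by ring
      _ ≤ P.n k * C := Nat.mul_le_mul_right _ ha0
  have hcell : ∀ {a0 a : ℕ} {x : ℝ}, a < C →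
      x ∈ Icc (((a0 * C + a : ℕ) : ℝ) * P.s l) ((((a0 * C + a : ℕ) : ℝ) + 1) * P.s l) →
      x ∈ Icc ((a0 : ℝ) * P.s k) (((a0 : ℝ) + 1) * P.s k) ∧
      x ∈ Icc ((a0 : ℝ) * P.s k + (a : ℝ) * P.s l)
        ((a0 : ℝ) * P.s k + ((a : ℝ) + 1) * P.s l) := by
    intro a0 a x ha hx
    have hac : ((a : ℝ) + 1) ≤ C := by exact_mod_cast ha
    have ha' : (0 : ℝ) ≤ a := by positivity
    rw [hkc]
    push_cast at hx
    obtain ⟨h1, h2⟩ := hx
    refine ⟨⟨?_, ?_⟩, ⟨?_, ?_⟩⟩ <;> nlinarith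
  refine ⟨Function.update ζ k c, a0 * C + a, b0 * C + b, ?_, hbound ha0 ha,
    hbound hb0 hb, ?_, ?_⟩
  · intro j hj
    rw [Function.update_of_ne (by omega), h0 j (by omega)]
  · rw [hp]
    unfold pt
    rw [Phi_update P V ζ k c (h0 k le_rfl)]
    push_cast
    rw [hkc, add_mul, add_mul, add_smul, add_smul, mul_assoc, mul_assoc]
    abel
  · intro j hj x hx t ht
    have hx' := hcell ha hx
    have ht' := hcell hb ht
    rcases lt_trichotomy j k with hjk | hjk | hjk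
    · rw [Function.update_of_ne hjk.ne]
      exact hA j hjk x hx'.1 t ht'.1
    · subst hjk
      rw [Function.update_self]
      exact hA' a0 b0 x hx'.2 t ht'.2
    · rw [Function.update_of_ne hjk.ne', h0 j hjk.le]
      exact Or.inl rfl

/-- displaced copies over horizontal strips -/
theorem Good.dispH {k l U : ℕ} {p : B} (h : Good P V k p) (hkl : k < l)
    (hU : P.n l = P.n (k + 1) * U) {i : ℕ} (hi : i < P.m k)
    {a g o : ℕ} (ha : a < P.M k * U) (ho : o < U)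
    (hb : 2 * (P.m k * g + i) * U + o < P.M k * U) :
    Good P V l (p + P.r k • V.W (i + 1) + ((a : ℝ) * P.s l) • V.e1 +
      (((2 * (P.m k * g + i) * U + o : ℕ) : ℝ) * P.s l) • V.e2) := by
  refine Good.disp_aux P V h hkl hU ha hb ?_
  intro a0 b0 x _ t ht
  refine Or.inr ⟨i, rfl, hi, Or.inl ⟨b0 * P.β k * P.N k + g, ?_⟩⟩
  have hsl := P.s_pos l
  have h1 := P.s_eq_mul hU
  have h2 := P.s_succ k
  have ho' : (o : ℝ) + 1 ≤ U := by exact_mod_cast ho
  have ho'' : (0 : ℝ) ≤ o := by positivity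
  rw [h2, h1] at ht
  rw [h1]
  unfold Par.M at ht
  push_cast at ht ⊢
  obtain ⟨ht1, ht2⟩ := ht
  have e1 : (2 * ((P.m k : ℝ) * (b0 * P.β k * P.N k + g) + i)) * (U * P.s l) =
      b0 * (2 * P.m k * P.β k * P.N k * (U * P.s l)) + (2 * (P.m k * g + i) * U) * P.s l := by
    ring
  have h3 : (o : ℝ) * P.s l ≥ 0 := by positivity
  have h4 : ((o : ℝ) + 1) * P.s l ≤ U * P.s l := mul_le_mul_of_nonneg_right ho' hsl.le
  constructor
  · rw [e1]
    linarith [ht1]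
  · rw [add_mul, e1]
    linarith [ht2]

/-- displaced copies over vertical strips -/
theorem Good.dispV {k l U : ℕ} {p : B} (h : Good P V k p) (hkl : k < l)
    (hU : P.n l = P.n (k + 1) * U) {i : ℕ} (hi : i < P.m k)
    {q o b : ℕ} (ho : o < P.β k * U)
    (ha : 2 * (P.m k * q + i) * (P.β k * U) + o < P.M k * U) (hb : b < P.M k * U) :
    Good P V l (p + P.r k • V.W (i + 1) +
      (((2 * (P.m k * q + i) * (P.β k * U) + o : ℕ) : ℝ) * P.s l) • V.e1 +
      ((b : ℝ) * P.s l) • V.e2) := by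
  refine Good.disp_aux P V h hkl hU ha hb ?_
  intro a0 b0 x hx t _
  refine Or.inr ⟨i, rfl, hi, Or.inr ⟨a0 * P.N k + q, ?_⟩⟩
  have hsl := P.s_pos l
  have h1 := P.s_eq_mul hU
  have h2 := P.s_succ k
  have ho' : (o : ℝ) + 1 ≤ P.β k * U := by exact_mod_cast ho
  have ho'' : (0 : ℝ) ≤ o := by positivity
  rw [h2, h1] at hx
  rw [h1]
  unfold Par.M at hx
  push_cast at hx ⊢
  obtain ⟨hx1, hx2⟩ := hx
  have e1 : (2 * ((P.m k : ℝ) * (a0 * P.N k + q) + i)) * (P.β k * (U * P.s l)) =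
      a0 * (2 * P.m k * P.β k * P.N k * (U * P.s l)) +
        (2 * (P.m k * q + i) * (P.β k * U)) * P.s l := by
    ring
  have h3 : (o : ℝ) * P.s l ≥ 0 := by positivity
  have h4 : ((o : ℝ) + 1) * P.s l ≤ P.β k * U * P.s l := mul_le_mul_of_nonneg_right ho' hsl.le
  constructor
  · rw [e1]
    linarith [hx1]
  · rw [add_mul, e1]
    linarith [hx2]

end good

end Crest.Agent.R254
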