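import Mathlib

/-!
# Row 254: the discrete lemma

Abstract averaging lemmas in an inner product space and the discrete lemma about functions on a
grid together with displaced copies.
-/

set_option autoImplicit false

open Finset

namespace Crest.Agent.R254

section AL

variable {ι : Type*} {E : Type*} [NormedAddCommGroup E] [InnerProductSpace ℝ E]

omit [InnerProductSpace ℝ E] in
lemma sum_norm_le_of_sq {S : Finset ι} {x : ι → E} {ε : ℝ} (hε : 0 ≤ ε)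
    (h : ∑ s ∈ S, ‖x s‖ ^ 2 ≤ (#S : ℝ) * ε) : ∑ s ∈ S, ‖x s‖ ≤ (#S : ℝ) * √ε := by
  have h1 := sq_sum_le_card_mul_sum_sq (s := S) (f := fun s => ‖x s‖)
  have hS : (0 : ℝ) ≤ (#S : ℝ) := by positivity
  have h2 : (∑ s ∈ S, ‖x s‖) ^ 2 ≤ ((#S : ℝ) * √ε) ^ 2 := by
    rw [mul_pow, Real.sq_sqrt hε]
    calc (∑ s ∈ S, ‖x s‖) ^ 2 ≤ (#S : ℝ) * ∑ s ∈ S, ‖x s‖ ^ 2 := h1
      _ ≤ (#S : ℝ) * ((#S : ℝ) * ε) := mul_le_mul_of_nonneg_left h hS
      _ = (#S : ℝ) ^ 2 * ε := by ring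
  exact le_of_sq_le_sq h2 (by positivity)

lemma sum_sub_eq {S : Finset ι} (w : ι → E) (V : E) :
    ∑ s ∈ S, inner ℝ (w s - V) V = inner ℝ (∑ s ∈ S, (w s - V)) V := by
  rw [sum_inner]

lemma var_le {S : Finset ι} {w : ι → E} {V : E} {D κ τ : ℝ} (hV : ‖V‖ ≤ D)
    (h1 : ‖∑ s ∈ S, (w s - V)‖ ≤ (#S : ℝ) * τ)
    (h2 : ∑ s ∈ S, ‖w s‖ ^ 2 ≤ (#S : ℝ) * (‖V‖ ^ 2 + κ)) :
    ∑ s ∈ S, ‖w s - V‖ ^ 2 ≤ (#S : ℝ) * (κ + 2 * D * τ) := by
  have h3 : ∑ s ∈ S, ‖w s - V‖ ^ 2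
      = ∑ s ∈ S, ‖w s‖ ^ 2 - (#S : ℝ) * ‖V‖ ^ 2 - 2 * inner ℝ (∑ s ∈ S, (w s - V)) V := by
    rw [← sum_sub_eq, mul_sum, ← nsmul_eq_mul, ← Finset.sum_const, ← Finset.sum_sub_distrib,
      ← Finset.sum_sub_distrib]
    refine Finset.sum_congr rfl fun s _ => ?_
    rw [inner_sub_left, real_inner_self_eq_norm_sq, norm_sub_sq_real]
    ring
  have h4 : |inner ℝ (∑ s ∈ S, (w s - V)) V| ≤ ((#S : ℝ) * τ) * D :=
    (abs_real_inner_le_norm _ _).trans (mul_le_mul h1 hV (norm_nonneg _)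
      ((norm_nonneg _).trans h1))
  have h5 := neg_abs_le (inner ℝ (∑ s ∈ S, (w s - V)) V)
  rw [h3]
  nlinarith

lemma bad_le {S : Finset ι} {w : ι → E} {V : E} {D κ τ η : ℝ} (hV : ‖V‖ ≤ D) (hκ : 0 ≤ κ)
    (h1 : ‖∑ s ∈ S, (w s - V)‖ ≤ (#S : ℝ) * τ)
    (h2 : ∀ s ∈ S, ‖w s‖ ^ 2 ≤ ‖V‖ ^ 2 + κ) :
    η * (#(S.filter fun s => ¬ (‖V‖ ^ 2 - η ≤ ‖w s‖ ^ 2)) : ℝ) ≤ (#S : ℝ) * (κ + 2 * D * τ) := by
  have h4 : |inner ℝ (∑ s ∈ S, (w s - V)) V| ≤ ((#S : ℝ) * τ) * D :=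
    (abs_real_inner_le_norm _ _).trans (mul_le_mul h1 hV (norm_nonneg _)
      ((norm_nonneg _).trans h1))
  have h5 := neg_abs_le (inner ℝ (∑ s ∈ S, (w s - V)) V)
  have h6 : ∑ s ∈ S, (‖V‖ ^ 2 + κ - ‖w s‖ ^ 2) ≤ (#S : ℝ) * (κ + 2 * D * τ) := by
    have h7 : ∑ s ∈ S, (‖V‖ ^ 2 + κ - ‖w s‖ ^ 2) ≤ ∑ s ∈ S, (κ - 2 * inner ℝ (w s - V) V) := by
      refine Finset.sum_le_sum fun s _ => ?_
      have h8 := norm_sub_sq_real (w s) V
      rw [inner_sub_left, real_inner_self_eq_norm_sq]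
      nlinarith [sq_nonneg ‖w s - V‖]
    have h8 : ∑ s ∈ S, (κ - 2 * inner ℝ (w s - V) V) =
        (#S : ℝ) * κ - 2 * inner ℝ (∑ s ∈ S, (w s - V)) V := by
      rw [Finset.sum_sub_distrib, ← mul_sum, sum_sub_eq, Finset.sum_const, nsmul_eq_mul]
    rw [h8] at h7
    nlinarith
  refine le_trans ?_ h6
  calc η * (#(S.filter fun s => ¬ (‖V‖ ^ 2 - η ≤ ‖w s‖ ^ 2)) : ℝ)
      = ∑ s ∈ S.filter (fun s => ¬ (‖V‖ ^ 2 - η ≤ ‖w s‖ ^ 2)), η := by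
        rw [Finset.sum_const, nsmul_eq_mul, mul_comm]
    _ ≤ ∑ s ∈ S.filter (fun s => ¬ (‖V‖ ^ 2 - η ≤ ‖w s‖ ^ 2)), (‖V‖ ^ 2 + κ - ‖w s‖ ^ 2) := by
        refine Finset.sum_le_sum fun s hs => ?_
        have := (Finset.mem_filter.1 hs).2
        linarith
    _ ≤ ∑ s ∈ S, (‖V‖ ^ 2 + κ - ‖w s‖ ^ 2) := by
        refine Finset.sum_le_sum_of_subset_of_nonneg (Finset.filter_subset _ _) fun s hs _ => ?_
        have := h2 s hs
        linarith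

/-- the second direction: variance from the energy bound -/
lemma second {S : Finset ι} {w1 w2 : ι → E} {V1 V2 : E} {D κ1 κ2 τ1 τ2 η : ℝ}
    (hV1 : ‖V1‖ ≤ D) (hV2 : ‖V2‖ ≤ D) (hκ1 : 0 ≤ κ1) (hκ2 : 0 ≤ κ2) (hη : 0 < η)
    (h1 : ‖∑ s ∈ S, (w1 s - V1)‖ ≤ (#S : ℝ) * τ1)
    (h2 : ∀ s ∈ S, ‖w1 s‖ ^ 2 ≤ ‖V1‖ ^ 2 + κ1)
    (h3 : ‖∑ s ∈ S, (w2 s - V2)‖ ≤ (#S : ℝ) * τ2)
    (h4 : ∀ s ∈ S, ‖w2 s‖ ≤ D)
    (h5 : ∀ s ∈ S, ‖V1‖ ^ 2 - η ≤ ‖w1 s‖ ^ 2 → ‖w2 s‖ ^ 2 ≤ ‖V2‖ ^ 2 + κ2) :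
    ∑ s ∈ S, ‖w2 s - V2‖ ^ 2 ≤
      (#S : ℝ) * (κ2 + D ^ 2 * (κ1 + 2 * D * τ1) / η + 2 * D * τ2) := by
  refine var_le hV2 h3 ?_
  have hb := bad_le (η := η) hV1 hκ1 h1 h2
  have hb' : (#(S.filter fun s => ¬ (‖V1‖ ^ 2 - η ≤ ‖w1 s‖ ^ 2)) : ℝ) ≤
      (#S : ℝ) * (κ1 + 2 * D * τ1) / η := by
    rw [le_div_iff₀ hη]; linarith
  rw [← Finset.sum_filter_add_sum_filter_not S (fun s => ‖V1‖ ^ 2 - η ≤ ‖w1 s‖ ^ 2)]
  have hg : ∑ s ∈ S.filter (fun s => ‖V1‖ ^ 2 - η ≤ ‖w1 s‖ ^ 2), ‖w2 s‖ ^ 2 ≤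
      (#S : ℝ) * (‖V2‖ ^ 2 + κ2) := by
    calc ∑ s ∈ S.filter (fun s => ‖V1‖ ^ 2 - η ≤ ‖w1 s‖ ^ 2), ‖w2 s‖ ^ 2
        ≤ ∑ s ∈ S.filter (fun s => ‖V1‖ ^ 2 - η ≤ ‖w1 s‖ ^ 2), (‖V2‖ ^ 2 + κ2) := by
          refine Finset.sum_le_sum fun s hs => ?_
          exact h5 s (Finset.mem_filter.1 hs).1 (Finset.mem_filter.1 hs).2
      _ ≤ ∑ s ∈ S, (‖V2‖ ^ 2 + κ2) :=
          Finset.sum_le_sum_of_subset_of_nonneg (Finset.filter_subset _ _) fun s _ _ => by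
            positivity
      _ = (#S : ℝ) * (‖V2‖ ^ 2 + κ2) := by rw [Finset.sum_const, nsmul_eq_mul]
  have hbd : ∑ s ∈ S.filter (fun s => ¬ (‖V1‖ ^ 2 - η ≤ ‖w1 s‖ ^ 2)), ‖w2 s‖ ^ 2 ≤
      D ^ 2 * ((#S : ℝ) * (κ1 + 2 * D * τ1) / η) := by
    calc ∑ s ∈ S.filter (fun s => ¬ (‖V1‖ ^ 2 - η ≤ ‖w1 s‖ ^ 2)), ‖w2 s‖ ^ 2
        ≤ ∑ s ∈ S.filter (fun s => ¬ (‖V1‖ ^ 2 - η ≤ ‖w1 s‖ ^ 2)), D ^ 2 := by
          refine Finset.sum_le_sum fun s hs => ?_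
          exact pow_le_pow_left₀ (norm_nonneg _) (h4 s (Finset.mem_filter.1 hs).1) 2
      _ = D ^ 2 * (#(S.filter fun s => ¬ (‖V1‖ ^ 2 - η ≤ ‖w1 s‖ ^ 2)) : ℝ) := by
          rw [Finset.sum_const, nsmul_eq_mul, mul_comm]
      _ ≤ D ^ 2 * ((#S : ℝ) * (κ1 + 2 * D * τ1) / η) :=
          mul_le_mul_of_nonneg_left hb' (by positivity)
  calc _ ≤ (#S : ℝ) * (‖V2‖ ^ 2 + κ2) + D ^ 2 * ((#S : ℝ) * (κ1 + 2 * D * τ1) / η) :=
        add_le_add hg hbd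
    _ = _ := by ring

omit [InnerProductSpace ℝ E] in
/-- transfer of the average to displaced copies -/
lemma rel_avg {S : Finset ι} {v w : ι → E} {V : E} {ε ρ : ℝ} (hε : 0 ≤ ε)
    (h1 : ∑ s ∈ S, ‖v s - V‖ ^ 2 ≤ (#S : ℝ) * ε)
    (h2 : ‖∑ s ∈ S, (w s - v s)‖ ≤ (#S : ℝ) * ρ) :
    ‖∑ s ∈ S, (w s - V)‖ ≤ (#S : ℝ) * (ρ + √ε) := by
  have h3 : ∑ s ∈ S, (w s - V) = ∑ s ∈ S, (w s - v s) + ∑ s ∈ S, (v s - V) := by
    rw [← Finset.sum_add_distrib]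
    exact Finset.sum_congr rfl fun s _ => by abel
  have h4 := sum_norm_le_of_sq hε h1
  calc ‖∑ s ∈ S, (w s - V)‖ ≤ ‖∑ s ∈ S, (w s - v s)‖ + ‖∑ s ∈ S, (v s - V)‖ := by
        rw [h3]; exact norm_add_le _ _
    _ ≤ (#S : ℝ) * ρ + (#S : ℝ) * √ε :=
        add_le_add h2 ((norm_sum_le _ _).trans h4)
    _ = _ := by ring

omit [InnerProductSpace ℝ E] in
lemma rel_l1 {S : Finset ι} {v w : ι → E} {V : E} {ε ε' : ℝ} (hε : 0 ≤ ε) (hε' : 0 ≤ ε')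
    (h1 : ∑ s ∈ S, ‖v s - V‖ ^ 2 ≤ (#S : ℝ) * ε)
    (h2 : ∑ s ∈ S, ‖w s - V‖ ^ 2 ≤ (#S : ℝ) * ε') :
    ∑ s ∈ S, ‖w s - v s‖ ≤ (#S : ℝ) * (√ε' + √ε) := by
  have h3 := sum_norm_le_of_sq hε h1
  have h4 := sum_norm_le_of_sq hε' h2
  calc ∑ s ∈ S, ‖w s - v s‖ ≤ ∑ s ∈ S, (‖w s - V‖ + ‖v s - V‖) := by
        refine Finset.sum_le_sum fun s _ => ?_
        calc ‖w s - v s‖ = ‖(w s - V) - (v s - V)‖ := by congr 1; abel
          _ ≤ _ := norm_sub_le _ _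
    _ = ∑ s ∈ S, ‖w s - V‖ + ∑ s ∈ S, ‖v s - V‖ := Finset.sum_add_distrib
    _ ≤ _ := by linarith

end AL

section blocks

variable {M : Type*} [AddCommMonoid M]

lemma sum_range_mul (A w : ℕ) (f : ℕ → M) :
    ∑ x ∈ range (A * w), f x = ∑ q ∈ range A, ∑ o ∈ range w, f (q * w + o) := by
  induction A with
  | zero => simp
  | succ A ih => rw [Nat.succ_mul, Finset.sum_range_add, ih, Finset.sum_range_succ]

/-- a family of strips of width `w` -/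
lemma strips_le {f : ℕ → ℝ} (hf : ∀ x, 0 ≤ f x) {m N w i : ℕ} (hi : i < m) :
    ∑ q ∈ range N, ∑ o ∈ range w, f (2 * (m * q + i) * w + o) ≤
      ∑ x ∈ range (2 * m * N * w), f x := by
  have h1 : 2 * m * N * w = N * (2 * m) * w := by ring
  rw [h1, sum_range_mul, sum_range_mul N (2 * m)]
  refine Finset.sum_le_sum fun q _ => ?_
  have h2 : ∑ o ∈ range w, f (2 * (m * q + i) * w + o) =
      (fun c => ∑ o ∈ range w, f ((q * (2 * m) + c) * w + o)) (2 * i) := by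
    refine Finset.sum_congr rfl fun o _ => ?_
    congr 1; ring
  rw [h2]
  exact Finset.single_le_sum (f := fun c => ∑ o ∈ range w, f ((q * (2 * m) + c) * w + o))
    (fun c _ => Finset.sum_nonneg fun o _ => hf _) (Finset.mem_range.2 (by omega))

end blocks

section regions

variable {E : Type*} [NormedAddCommGroup E] [InnerProductSpace ℝ E]

omit [InnerProductSpace ℝ E] in
lemma norm_telescope_le {G : ℕ → E} {R : ℝ} (hG : ∀ a, ‖G a‖ ≤ R) (c w : ℕ) :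
    ‖∑ o ∈ range w, (G (c + o + 1) - G (c + o))‖ ≤ 2 * R := by
  have h := Finset.sum_range_sub (fun o => G (c + o)) w
  have h' : ∑ o ∈ range w, (G (c + o + 1) - G (c + o)) = G (c + w) - G (c + 0) := by
    rw [← h]; rfl
  rw [h']
  calc ‖G (c + w) - G (c + 0)‖ ≤ ‖G (c + w)‖ + ‖G (c + 0)‖ := norm_sub_le _ _
    _ ≤ 2 * R := by linarith [hG (c + w), hG (c + 0)]

lemma regionV {D κ1 κ2 η R ε2 ε3 τ1 τ2 : ℝ} {m N w n i : ℕ}
    (hi : i < m) (hN : 0 < N) (hw : 0 < w) (hn : n = 2 * m * N * w)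
    (hκ1 : 0 ≤ κ1) (hκ2 : 0 ≤ κ2) (hη : 0 < η) (hε2 : 0 ≤ ε2) (hD : 0 ≤ D)
    {g1 g2 h1 h2 : ℕ → ℕ → E} {V1 V2 : E} (hV1 : ‖V1‖ ≤ D) (hV2 : ‖V2‖ ≤ D)
    (hh2 : ∀ a b, ‖h2 a (b + 1) - h2 a b‖ ≤ D)
    (hd1 : ∀ a b, ‖h1 a b - g1 a b‖ ≤ R) (hd2 : ∀ a b, ‖h2 a b - g2 a b‖ ≤ R)
    (hb1 : ∑ a ∈ range n, ∑ b ∈ range n, ‖(g1 (a + 1) b - g1 a b) - V1‖ ^ 2 ≤ (n : ℝ) ^ 2 * κ1)
    (hb2 : ∑ a ∈ range n, ∑ b ∈ range n, ‖(g2 a (b + 1) - g2 a b) - V2‖ ^ 2 ≤ (n : ℝ) ^ 2 * ε2)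
    (hAV : ∀ q < N, ∀ o < w, ∀ b < n,
      ‖h1 (2 * (m * q + i) * w + o + 1) b - h1 (2 * (m * q + i) * w + o) b‖ ^ 2 ≤ ‖V1‖ ^ 2 + κ1)
    (hBV : ∀ q < N, ∀ o < w, ∀ b < n,
      ‖V1‖ ^ 2 - η ≤ ‖h1 (2 * (m * q + i) * w + o + 1) b - h1 (2 * (m * q + i) * w + o) b‖ ^ 2 →
      ‖h2 (2 * (m * q + i) * w + o) (b + 1) - h2 (2 * (m * q + i) * w + o) b‖ ^ 2
        ≤ ‖V2‖ ^ 2 + κ2)
    (hτ1 : 2 * R / w + √(2 * m * κ1) ≤ τ1) (hτ2 : 2 * R / n + √(2 * m * ε2) ≤ τ2)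
    (hε3 : κ2 + D ^ 2 * (κ1 + 2 * D * τ1) / η + 2 * D * τ2 ≤ ε3) :
    ∑ q ∈ range N, ∑ o ∈ range w, ∑ b ∈ range n,
      ‖(h2 (2 * (m * q + i) * w + o) (b + 1) - h2 (2 * (m * q + i) * w + o) b) -
        (g2 (2 * (m * q + i) * w + o) (b + 1) - g2 (2 * (m * q + i) * w + o) b)‖ ≤
      ((N : ℝ) * w * n) * (√ε3 + √(2 * m * ε2)) := by
  have hR : 0 ≤ R := (norm_nonneg _).trans (hd1 0 0)
  have hm : 0 < m := lt_of_le_of_lt (Nat.zero_le _) hi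
  have hn0 : 0 < n := by rw [hn]; positivity
  have hnR : (n : ℝ) = 2 * m * N * w := by rw [hn]; push_cast; ring
  set S : Finset ((ℕ × ℕ) × ℕ) := (range N ×ˢ range w) ×ˢ range n with hS
  have hcard : (#S : ℝ) = (N : ℝ) * w * n := by
    rw [hS]; simp [Finset.card_product]
  set c : (ℕ × ℕ) × ℕ → ℕ := fun s => 2 * (m * s.1.1 + i) * w + s.1.2 with hc
  have hsum : ∀ f : ℕ → ℕ → ℝ, ∑ s ∈ S, f (c s) s.2 =
      ∑ q ∈ range N, ∑ o ∈ range w, ∑ b ∈ range n, f (2 * (m * q + i) * w + o) b := by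
    intro f
    rw [hS, Finset.sum_product, Finset.sum_product]
  have hsumE : ∀ f : ℕ → ℕ → E, ∑ s ∈ S, f (c s) s.2 =
      ∑ q ∈ range N, ∑ o ∈ range w, ∑ b ∈ range n, f (2 * (m * q + i) * w + o) b := by
    intro f
    rw [hS, Finset.sum_product, Finset.sum_product]
  have hrestr : ∀ (f : ℕ → ℕ → ℝ) (ε : ℝ), (∀ a b, 0 ≤ f a b) →
      ∑ a ∈ range n, ∑ b ∈ range n, f a b ≤ (n : ℝ) ^ 2 * ε →
      ∑ s ∈ S, f (c s) s.2 ≤ (#S : ℝ) * (2 * m * ε) := by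
    intro f ε hf h
    rw [hsum, hcard]
    have h1 := strips_le (f := fun a => ∑ b ∈ range n, f a b)
      (fun a => Finset.sum_nonneg fun b _ => hf a b) (m := m) (N := N) (w := w) hi
    rw [← hn] at h1
    refine h1.trans (h.trans (le_of_eq ?_))
    rw [sq]; nth_rewrite 1 [hnR]; ring
  have hmem : ∀ s ∈ S, s.1.1 < N ∧ s.1.2 < w ∧ s.2 < n := by
    intro s hs
    simp only [hS, Finset.mem_product, Finset.mem_range] at hs
    exact ⟨hs.1.1, hs.1.2, hs.2⟩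
  -- base on the region
  have hr1 := hrestr (fun a b => ‖(g1 (a + 1) b - g1 a b) - V1‖ ^ 2) κ1
    (fun a b => by positivity) hb1
  have hr2 := hrestr (fun a b => ‖(g2 a (b + 1) - g2 a b) - V2‖ ^ 2) ε2
    (fun a b => by positivity) hb2
  -- telescoping
  have ht1 : ‖∑ s ∈ S, ((h1 (c s + 1) s.2 - h1 (c s) s.2) - (g1 (c s + 1) s.2 - g1 (c s) s.2))‖ ≤
      (#S : ℝ) * (2 * R / w) := by
    rw [hsumE (fun a b => (h1 (a + 1) b - h1 a b) - (g1 (a + 1) b - g1 a b))]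
    have hq : ∀ q ∈ range N, ‖∑ o ∈ range w, ∑ b ∈ range n,
        ((h1 (2 * (m * q + i) * w + o + 1) b - h1 (2 * (m * q + i) * w + o) b) -
          (g1 (2 * (m * q + i) * w + o + 1) b - g1 (2 * (m * q + i) * w + o) b))‖
        ≤ n * (2 * R) := by
      intro q _
      rw [Finset.sum_comm]
      refine (norm_sum_le _ _).trans ?_
      calc _ ≤ ∑ b ∈ range n, 2 * R := by
            refine Finset.sum_le_sum fun b _ => ?_
            refine le_trans (le_of_eq ?_) (norm_telescope_le (G := fun a => h1 a b - g1 a b)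
              (fun a => hd1 a b) (2 * (m * q + i) * w) w)
            congr 1
            exact Finset.sum_congr rfl fun o _ => by abel
        _ = n * (2 * R) := by rw [Finset.sum_const, nsmul_eq_mul, Finset.card_range]
    refine (norm_sum_le _ _).trans ((Finset.sum_le_sum hq).trans (le_of_eq ?_))
    rw [Finset.sum_const, nsmul_eq_mul, Finset.card_range, hcard]
    field_simp
  have ht2 : ‖∑ s ∈ S, ((h2 (c s) (s.2 + 1) - h2 (c s) s.2) - (g2 (c s) (s.2 + 1) - g2 (c s) s.2))‖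
      ≤ (#S : ℝ) * (2 * R / n) := by
    rw [hsumE (fun a b => (h2 a (b + 1) - h2 a b) - (g2 a (b + 1) - g2 a b))]
    refine (norm_sum_le _ _).trans ?_
    calc _ ≤ ∑ q ∈ range N, ∑ o ∈ range w, 2 * R := by
          refine Finset.sum_le_sum fun q _ => (norm_sum_le _ _).trans
            (Finset.sum_le_sum fun o _ => ?_)
          refine le_trans (le_of_eq ?_) (norm_telescope_le
            (G := fun b => h2 (2 * (m * q + i) * w + o) b - g2 (2 * (m * q + i) * w + o) b)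
            (fun b => hd2 _ b) 0 n)
          congr 1
          exact Finset.sum_congr rfl fun b _ => by rw [Nat.zero_add]; abel
      _ = (#S : ℝ) * (2 * R / n) := by
          simp only [Finset.sum_const, nsmul_eq_mul, Finset.card_range, hcard]
          field_simp
  have h1' : ‖∑ s ∈ S, ((h1 (c s + 1) s.2 - h1 (c s) s.2) - V1)‖ ≤ (#S : ℝ) * τ1 :=
    (rel_avg (by positivity) hr1 ht1).trans (mul_le_mul_of_nonneg_left hτ1 (by positivity))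
  have h2' := (rel_avg (by positivity) hr2 ht2).trans
    (mul_le_mul_of_nonneg_left hτ2 (by positivity))
  have h3 := second (S := S) hV1 hV2 hκ1 hκ2 hη h1'
    (fun s hs => by
      obtain ⟨ha, hb, hc'⟩ := hmem s hs
      exact hAV _ ha _ hb _ hc')
    h2' (fun s _ => hh2 _ _)
    (fun s hs h => by
      obtain ⟨ha, hb, hc'⟩ := hmem s hs
      exact hBV _ ha _ hb _ hc' h)
  have h4 : ∑ s ∈ S, ‖(h2 (c s) (s.2 + 1) - h2 (c s) s.2) - V2‖ ^ 2 ≤ (#S : ℝ) * ε3 :=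
    h3.trans (mul_le_mul_of_nonneg_left hε3 (by positivity))
  have hτ1' : 0 ≤ τ1 := le_trans (by positivity) hτ1
  have hτ2' : 0 ≤ τ2 := le_trans (by positivity) hτ2
  have h5 := rel_l1 (ε := 2 * m * ε2) (ε' := ε3) (by positivity)
    (le_trans (by positivity) hε3) hr2 h4
  rw [hsum (fun a b => ‖(h2 a (b + 1) - h2 a b) - (g2 a (b + 1) - g2 a b)‖), hcard] at h5
  exact h5

lemma regionH {D κ1 R τ0 : ℝ} {m G U n i : ℕ}
    (hi : i < m) (hG : 0 < G) (hU : 0 < U) (hn : n = 2 * m * G * U)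
    (hκ1 : 0 ≤ κ1) (hD : 0 ≤ D) {g1 h1 : ℕ → ℕ → E} {V1 : E} (hV1 : ‖V1‖ ≤ D)
    (hd1 : ∀ a b, ‖h1 a b - g1 a b‖ ≤ R)
    (hb1 : ∑ a ∈ range n, ∑ b ∈ range n, ‖(g1 (a + 1) b - g1 a b) - V1‖ ^ 2 ≤ (n : ℝ) ^ 2 * κ1)
    (hAH : ∀ a < n, ∀ g < G, ∀ o < U,
      ‖h1 (a + 1) (2 * (m * g + i) * U + o) - h1 a (2 * (m * g + i) * U + o)‖ ^ 2
        ≤ ‖V1‖ ^ 2 + κ1)
    (hτ0 : 2 * R / n + √(2 * m * κ1) ≤ τ0) :
    ∑ a ∈ range n, ∑ g ∈ range G, ∑ o ∈ range U,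
      ‖(h1 (a + 1) (2 * (m * g + i) * U + o) - h1 a (2 * (m * g + i) * U + o)) -
        (g1 (a + 1) (2 * (m * g + i) * U + o) - g1 a (2 * (m * g + i) * U + o))‖ ≤
      ((n : ℝ) * G * U) * (√(κ1 + 2 * D * τ0) + √(2 * m * κ1)) := by
  have hR : 0 ≤ R := (norm_nonneg _).trans (hd1 0 0)
  have hm : 0 < m := lt_of_le_of_lt (Nat.zero_le _) hi
  have hn0 : 0 < n := by rw [hn]; positivity
  have hnR : (n : ℝ) = 2 * m * G * U := by rw [hn]; push_cast; ring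
  set S : Finset (ℕ × (ℕ × ℕ)) := range n ×ˢ (range G ×ˢ range U) with hS
  have hcard : (#S : ℝ) = (n : ℝ) * G * U := by
    rw [hS]; simp [Finset.card_product]; ring
  set c : ℕ × (ℕ × ℕ) → ℕ := fun s => 2 * (m * s.2.1 + i) * U + s.2.2 with hc
  have hsum : ∀ f : ℕ → ℕ → ℝ, ∑ s ∈ S, f s.1 (c s) =
      ∑ a ∈ range n, ∑ g ∈ range G, ∑ o ∈ range U, f a (2 * (m * g + i) * U + o) := by
    intro f
    rw [hS, Finset.sum_product]
    exact Finset.sum_congr rfl fun a _ => by rw [Finset.sum_product]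
  have hsumE : ∀ f : ℕ → ℕ → E, ∑ s ∈ S, f s.1 (c s) =
      ∑ a ∈ range n, ∑ g ∈ range G, ∑ o ∈ range U, f a (2 * (m * g + i) * U + o) := by
    intro f
    rw [hS, Finset.sum_product]
    exact Finset.sum_congr rfl fun a _ => by rw [Finset.sum_product]
  have hrestr : ∀ (f : ℕ → ℕ → ℝ) (ε : ℝ), (∀ a b, 0 ≤ f a b) →
      ∑ a ∈ range n, ∑ b ∈ range n, f a b ≤ (n : ℝ) ^ 2 * ε →
      ∑ s ∈ S, f s.1 (c s) ≤ (#S : ℝ) * (2 * m * ε) := by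
    intro f ε hf h
    rw [hsum, hcard]
    have h1 : ∑ a ∈ range n, ∑ g ∈ range G, ∑ o ∈ range U, f a (2 * (m * g + i) * U + o) ≤
        ∑ a ∈ range n, ∑ b ∈ range n, f a b := by
      refine Finset.sum_le_sum fun a _ => ?_
      have := strips_le (f := fun b => f a b) (fun b => hf a b) (m := m) (N := G) (w := U) hi
      rwa [← hn] at this
    refine h1.trans (h.trans (le_of_eq ?_))
    rw [sq]; nth_rewrite 2 [hnR]; ring
  have hmem : ∀ s ∈ S, s.1 < n ∧ s.2.1 < G ∧ s.2.2 < U := by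
    intro s hs
    simp only [hS, Finset.mem_product, Finset.mem_range] at hs
    exact ⟨hs.1, hs.2.1, hs.2.2⟩
  have hr1 := hrestr (fun a b => ‖(g1 (a + 1) b - g1 a b) - V1‖ ^ 2) κ1
    (fun a b => by positivity) hb1
  have ht1 : ‖∑ s ∈ S, ((h1 (s.1 + 1) (c s) - h1 s.1 (c s)) - (g1 (s.1 + 1) (c s) - g1 s.1 (c s)))‖
      ≤ (#S : ℝ) * (2 * R / n) := by
    rw [hsumE (fun a b => (h1 (a + 1) b - h1 a b) - (g1 (a + 1) b - g1 a b)), Finset.sum_comm]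
    have hq : ∀ g ∈ range G, ‖∑ a ∈ range n, ∑ o ∈ range U,
        ((h1 (a + 1) (2 * (m * g + i) * U + o) - h1 a (2 * (m * g + i) * U + o)) -
          (g1 (a + 1) (2 * (m * g + i) * U + o) - g1 a (2 * (m * g + i) * U + o)))‖
        ≤ U * (2 * R) := by
      intro g _
      rw [Finset.sum_comm]
      refine (norm_sum_le _ _).trans ?_
      calc _ ≤ ∑ o ∈ range U, 2 * R := by
            refine Finset.sum_le_sum fun o _ => ?_
            refine le_trans (le_of_eq ?_) (norm_telescope_le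
              (G := fun a => h1 a (2 * (m * g + i) * U + o) - g1 a (2 * (m * g + i) * U + o))
              (fun a => hd1 a _) 0 n)
            congr 1
            exact Finset.sum_congr rfl fun b _ => by rw [Nat.zero_add]; abel
        _ = U * (2 * R) := by rw [Finset.sum_const, nsmul_eq_mul, Finset.card_range]
    refine (norm_sum_le _ _).trans ((Finset.sum_le_sum hq).trans (le_of_eq ?_))
    rw [Finset.sum_const, nsmul_eq_mul, Finset.card_range, hcard]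
    field_simp
  have h1' := (rel_avg (by positivity) hr1 ht1).trans
    (mul_le_mul_of_nonneg_left hτ0 (by positivity))
  have hτ0' : 0 ≤ τ0 := le_trans (by positivity) hτ0
  have h2 := var_le (κ := κ1) hV1 h1' (by
    calc _ ≤ ∑ s ∈ S, (‖V1‖ ^ 2 + κ1) := by
          refine Finset.sum_le_sum fun s hs => ?_
          obtain ⟨ha, hb, hc'⟩ := hmem s hs
          exact hAH _ ha _ hb _ hc'
      _ = (#S : ℝ) * (‖V1‖ ^ 2 + κ1) := by rw [Finset.sum_const, nsmul_eq_mul])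
  have h5 := rel_l1 (ε := 2 * m * κ1) (ε' := κ1 + 2 * D * τ0) (by positivity)
    (by positivity) hr1 h2
  rw [hsum (fun a b => ‖(h1 (a + 1) b - h1 a b) - (g1 (a + 1) b - g1 a b)‖), hcard] at h5
  exact h5

end regions

section discrete

variable {E : Type*} [NormedAddCommGroup E] [InnerProductSpace ℝ E]

omit [InnerProductSpace ℝ E] in
/-- drift of a function along a block is at most the sum of the norms of its increments -/
lemma norm_sub_le_sum {G : ℕ → E} {A w : ℕ} {x y : ℕ} (hx : A ≤ x) (hx' : x < A + w)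
    (hy : A ≤ y) (hy' : y < A + w) :
    ‖G x - G y‖ ≤ ∑ o ∈ range w, ‖G (A + o + 1) - G (A + o)‖ := by
  wlog h : y ≤ x generalizing x y
  · rw [norm_sub_rev]
    exact this hy hy' hx hx' (by omega)
  obtain ⟨y', rfl⟩ := Nat.exists_eq_add_of_le hy
  obtain ⟨d, rfl⟩ := Nat.exists_eq_add_of_le h
  have h1 : G (A + y' + d) - G (A + y') = ∑ o ∈ range d, (G (A + y' + o + 1) - G (A + y' + o)) := by
    have := Finset.sum_range_sub (fun o => G (A + y' + o)) d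
    simp only [Nat.add_zero] at this
    rw [← this]; rfl
  rw [h1]
  refine (norm_sum_le _ _).trans ?_
  have h2 : ∑ o ∈ range d, ‖G (A + y' + o + 1) - G (A + y' + o)‖ =
      ∑ o ∈ Finset.Ico y' (y' + d), ‖G (A + o + 1) - G (A + o)‖ := by
    rw [Finset.sum_Ico_eq_sum_range]
    simp only [Nat.add_sub_cancel_left]
    refine Finset.sum_congr rfl fun o _ => by rw [← add_assoc A y' o]
  rw [h2]
  refine Finset.sum_le_sum_of_subset_of_nonneg ?_ fun o _ _ => norm_nonneg _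
  intro o ho
  rw [Finset.mem_Ico] at ho
  rw [Finset.mem_range]; omega

/-- choice of an index with at most average value -/
lemma exists_le_avg {s : Finset ℕ} {f : ℕ → ℝ} {w : ℕ} {T : ℝ} (hw : 0 < w)
    (hs : s = range w) (h : (1 / (w : ℝ)) * ∑ o ∈ s, f o ≤ T) : ∃ o < w, f o ≤ T := by
  subst hs
  by_contra hcon
  push Not at hcon
  have h1 : ∑ o ∈ range w, T < ∑ o ∈ range w, f o :=
    Finset.sum_lt_sum_of_nonempty (Finset.nonempty_range_iff.2 hw.ne')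
      fun o ho => hcon o (Finset.mem_range.1 ho)
  rw [Finset.sum_const, nsmul_eq_mul, Finset.card_range] at h1
  have h2 : (0 : ℝ) < w := by exact_mod_cast hw
  have h3 : ∑ o ∈ range w, f o ≤ w * T := by
    calc ∑ o ∈ range w, f o = w * ((1 / (w : ℝ)) * ∑ o ∈ range w, f o) := by field_simp
      _ ≤ w * T := mul_le_mul_of_nonneg_left h h2.le
  linarith

theorem discrete {D κ1 κ2 η R ε2 ε3 τ0 τ1 τ2 τ3 τ4 T : ℝ} {m β N U n : ℕ}
    (hm : 0 < m) (hβ : 0 < β) (hN : 0 < N) (hU : 0 < U) (hn : n = 2 * m * β * N * U)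
    (hD : 0 ≤ D) (hκ1 : 0 ≤ κ1) (hκ2 : 0 ≤ κ2) (hη : 0 < η)
    {g1 g2 : ℕ → ℕ → E} {h1 h2 : ℕ → ℕ → ℕ → E} {V1 V2 : E}
    (hV1 : ‖V1‖ ≤ D) (hV2 : ‖V2‖ ≤ D)
    (hg2 : ∀ a b, ‖g2 a (b + 1) - g2 a b‖ ≤ D)
    (hh2 : ∀ i a b, ‖h2 i a (b + 1) - h2 i a b‖ ≤ D)
    (hd1 : ∀ i a b, ‖h1 i a b - g1 a b‖ ≤ R)
    (hd2 : ∀ i a b, ‖h2 i a b - g2 a b‖ ≤ R)
    (hs1 : ((n : ℝ) ^ 2) • V1 = ∑ a ∈ range n, ∑ b ∈ range n, (g1 (a + 1) b - g1 a b))
    (hs2 : ((n : ℝ) ^ 2) • V2 = ∑ a ∈ range n, ∑ b ∈ range n, (g2 a (b + 1) - g2 a b))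
    (hA : ∀ a < n, ∀ b < n, ‖g1 (a + 1) b - g1 a b‖ ^ 2 ≤ ‖V1‖ ^ 2 + κ1)
    (hAV : ∀ i < m, ∀ q < N, ∀ o < β * U, ∀ b < n,
      ‖h1 i (2 * (m * q + i) * (β * U) + o + 1) b - h1 i (2 * (m * q + i) * (β * U) + o) b‖ ^ 2
        ≤ ‖V1‖ ^ 2 + κ1)
    (hAH : ∀ i < m, ∀ a < n, ∀ g < β * N, ∀ o < U,
      ‖h1 i (a + 1) (2 * (m * g + i) * U + o) - h1 i a (2 * (m * g + i) * U + o)‖ ^ 2
        ≤ ‖V1‖ ^ 2 + κ1)
    (hB : ∀ a < n, ∀ b < n, ‖V1‖ ^ 2 - η ≤ ‖g1 (a + 1) b - g1 a b‖ ^ 2 →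
      ‖g2 a (b + 1) - g2 a b‖ ^ 2 ≤ ‖V2‖ ^ 2 + κ2)
    (hBV : ∀ i < m, ∀ q < N, ∀ o < β * U, ∀ b < n,
      ‖V1‖ ^ 2 - η ≤
        ‖h1 i (2 * (m * q + i) * (β * U) + o + 1) b - h1 i (2 * (m * q + i) * (β * U) + o) b‖ ^ 2 →
      ‖h2 i (2 * (m * q + i) * (β * U) + o) (b + 1) - h2 i (2 * (m * q + i) * (β * U) + o) b‖ ^ 2
        ≤ ‖V2‖ ^ 2 + κ2)
    (hε2 : κ2 + D ^ 2 * κ1 / η ≤ ε2)
    (hτ0 : 2 * R / n + √(2 * m * κ1) ≤ τ0)
    (hτ1 : 2 * R / (β * U) + √(2 * m * κ1) ≤ τ1)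
    (hτ2 : 2 * R / n + √(2 * m * ε2) ≤ τ2)
    (hε3 : κ2 + D ^ 2 * (κ1 + 2 * D * τ1) / η + 2 * D * τ2 ≤ ε3)
    (hτ3 : √ε3 + √(2 * m * ε2) ≤ τ3)
    (hτ4 : √(κ1 + 2 * D * τ0) + √(2 * m * κ1) ≤ τ4)
    (hT : 2 * m ^ 2 * U * (τ3 + β * τ4) ≤ T) :
    ∃ n0 < N, ∃ g0 < β * N, ∃ α γ : ℕ → ℕ,
      (∀ i < m, ∃ o < β * U, α i = 2 * (m * n0 + i) * (β * U) + o) ∧
      (∀ i < m, ∃ o < U, γ i = 2 * (m * g0 + i) * U + o) ∧
      ∀ i < m, ∀ j < m,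
        ‖(h2 i (α i) (γ j) - g2 (α i) (γ j)) - (h2 i (α i) (γ i) - g2 (α i) (γ i))‖ ≤ T ∧
        ‖(h1 j (α i) (γ j) - g1 (α i) (γ j)) - (h1 j (α j) (γ j) - g1 (α j) (γ j))‖ ≤ T := by
  have hR : 0 ≤ R := (norm_nonneg _).trans (hd1 0 0 0)
  have hn0 : 0 < n := by rw [hn]; positivity
  have hnR : (n : ℝ) = 2 * m * β * N * U := by rw [hn]; push_cast; ring
  have hw : 0 < β * U := by positivity
  have hG : 0 < β * N := by positivity
  have hε2' : 0 ≤ ε2 := le_trans (by positivity) hε2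
  have hτ0' : 0 ≤ τ0 := le_trans (by positivity) hτ0
  have hτ1' : 0 ≤ τ1 := le_trans (by positivity) hτ1
  have hτ2' : 0 ≤ τ2 := le_trans (by positivity) hτ2
  have hε3' : 0 ≤ ε3 := le_trans (by positivity) hε3
  -- base square
  set S : Finset (ℕ × ℕ) := range n ×ˢ range n with hS
  have hcard : (#S : ℝ) = (n : ℝ) ^ 2 := by
    rw [hS]; simp [Finset.card_product]; ring
  have hmem : ∀ s ∈ S, s.1 < n ∧ s.2 < n := by
    intro s hs
    simpa only [hS, Finset.mem_product, Finset.mem_range] using hs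
  have hz1 : ∑ s ∈ S, ((g1 (s.1 + 1) s.2 - g1 s.1 s.2) - V1) = 0 := by
    rw [Finset.sum_sub_distrib, Finset.sum_const, ← Nat.cast_smul_eq_nsmul ℝ, hcard, hs1, hS,
      Finset.sum_product, sub_self]
  have hz2 : ∑ s ∈ S, ((g2 s.1 (s.2 + 1) - g2 s.1 s.2) - V2) = 0 := by
    rw [Finset.sum_sub_distrib, Finset.sum_const, ← Nat.cast_smul_eq_nsmul ℝ, hcard, hs2, hS,
      Finset.sum_product, sub_self]
  have hb1 : ∑ a ∈ range n, ∑ b ∈ range n, ‖(g1 (a + 1) b - g1 a b) - V1‖ ^ 2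
      ≤ (n : ℝ) ^ 2 * κ1 := by
    have h := var_le (S := S) (w := fun s => g1 (s.1 + 1) s.2 - g1 s.1 s.2) (V := V1) (κ := κ1)
      (τ := 0) hV1 (by rw [hz1]; simp) (by
        calc _ ≤ ∑ s ∈ S, (‖V1‖ ^ 2 + κ1) :=
              Finset.sum_le_sum fun s hs => hA _ (hmem s hs).1 _ (hmem s hs).2
          _ = (#S : ℝ) * (‖V1‖ ^ 2 + κ1) := by rw [Finset.sum_const, nsmul_eq_mul])
    rw [hcard, hS, Finset.sum_product] at h
    simpa using h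
  have hb2 : ∑ a ∈ range n, ∑ b ∈ range n, ‖(g2 a (b + 1) - g2 a b) - V2‖ ^ 2
      ≤ (n : ℝ) ^ 2 * ε2 := by
    have h := second (S := S) (w1 := fun s => g1 (s.1 + 1) s.2 - g1 s.1 s.2)
      (w2 := fun s => g2 s.1 (s.2 + 1) - g2 s.1 s.2) (V1 := V1) (V2 := V2) (τ1 := 0) (τ2 := 0)
      hV1 hV2 hκ1 hκ2 hη (by rw [hz1]; simp)
      (fun s hs => hA _ (hmem s hs).1 _ (hmem s hs).2) (by rw [hz2]; simp)
      (fun s _ => hg2 _ _) (fun s hs h => hB _ (hmem s hs).1 _ (hmem s hs).2 h)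
    rw [hcard, hS, Finset.sum_product] at h
    refine h.trans (mul_le_mul_of_nonneg_left ?_ (by positivity))
    simpa using hε2
  -- the two region estimates
  have hV : ∀ i < m, ∑ q ∈ range N, ∑ o ∈ range (β * U), ∑ b ∈ range n,
      ‖(h2 i (2 * (m * q + i) * (β * U) + o) (b + 1) - h2 i (2 * (m * q + i) * (β * U) + o) b) -
        (g2 (2 * (m * q + i) * (β * U) + o) (b + 1) - g2 (2 * (m * q + i) * (β * U) + o) b)‖ ≤
      ((N : ℝ) * (β * U : ℕ) * n) * τ3 := by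
    intro i hi
    refine (regionV (R := R) (ε2 := ε2) (ε3 := ε3) (τ1 := τ1) (τ2 := τ2) (n := n) hi hN hw
      (by rw [hn]; ring) hκ1 hκ2 hη hε2' hD hV1 hV2 (hh2 i) (hd1 i) (hd2 i) hb1 hb2
      (hAV i hi) (hBV i hi) (by push_cast; exact hτ1) hτ2 hε3).trans ?_
    exact mul_le_mul_of_nonneg_left hτ3 (by positivity)
  have hH : ∀ i < m, ∑ a ∈ range n, ∑ g ∈ range (β * N), ∑ o ∈ range U,
      ‖(h1 i (a + 1) (2 * (m * g + i) * U + o) - h1 i a (2 * (m * g + i) * U + o)) -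
        (g1 (a + 1) (2 * (m * g + i) * U + o) - g1 a (2 * (m * g + i) * U + o))‖ ≤
      ((n : ℝ) * (β * N : ℕ) * U) * τ4 := by
    intro i hi
    refine (regionH (R := R) (τ0 := τ0) (n := n) hi hG hU (by rw [hn]; ring) hκ1 hD hV1 (hd1 i)
      hb1 (hAH i hi) hτ0).trans ?_
    exact mul_le_mul_of_nonneg_left hτ4 (by positivity)
  -- the averaged functional
  set d2 : ℕ → ℕ → ℕ → ℝ := fun i a b =>
    ‖(h2 i a (b + 1) - h2 i a b) - (g2 a (b + 1) - g2 a b)‖ with hd2def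
  set d1 : ℕ → ℕ → ℕ → ℝ := fun i a b =>
    ‖(h1 i (a + 1) b - h1 i a b) - (g1 (a + 1) b - g1 a b)‖ with hd1def
  have hd2n : ∀ i a b, 0 ≤ d2 i a b := fun i a b => norm_nonneg _
  have hd1n : ∀ i a b, 0 ≤ d1 i a b := fun i a b => norm_nonneg _
  set Tf : ℕ → ℕ → ℝ := fun n0 g0 => ∑ i ∈ range m,
    ((1 / ((β * U : ℕ) : ℝ)) * ∑ o ∈ range (β * U), ∑ b ∈ range (2 * m * U),
        d2 i (2 * (m * n0 + i) * (β * U) + o) (g0 * (2 * m * U) + b) +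
      (1 / (U : ℝ)) * ∑ o ∈ range U, ∑ a ∈ range (2 * m * (β * U)),
        d1 i (n0 * (2 * m * (β * U)) + a) (2 * (m * g0 + i) * U + o)) with hTf
  have htot : ∑ n0 ∈ range N, ∑ g0 ∈ range (β * N), Tf n0 g0 ≤
      ∑ n0 ∈ range N, ∑ g0 ∈ range (β * N), T := by
    have h1 : ∑ n0 ∈ range N, ∑ g0 ∈ range (β * N), Tf n0 g0 = ∑ i ∈ range m,
        ((1 / ((β * U : ℕ) : ℝ)) * (∑ q ∈ range N, ∑ o ∈ range (β * U), ∑ b ∈ range n,
          d2 i (2 * (m * q + i) * (β * U) + o) b) +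
        (1 / (U : ℝ)) * ∑ a ∈ range n, ∑ g ∈ range (β * N), ∑ o ∈ range U,
          d1 i a (2 * (m * g + i) * U + o)) := by
      have e1 : ∀ f : ℕ → ℝ, ∑ b ∈ range n, f b =
          ∑ g0 ∈ range (β * N), ∑ b ∈ range (2 * m * U), f (g0 * (2 * m * U) + b) := by
        intro f
        have : n = (β * N) * (2 * m * U) := by rw [hn]; ring
        rw [this, sum_range_mul]
      have e2 : ∀ f : ℕ → ℝ, ∑ a ∈ range n, f a =
          ∑ n0 ∈ range N, ∑ a ∈ range (2 * m * (β * U)), f (n0 * (2 * m * (β * U)) + a) := by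
        intro f
        have : n = N * (2 * m * (β * U)) := by rw [hn]; ring
        rw [this, sum_range_mul]
      simp only [hTf]
      simp only [Finset.sum_comm (s := range (β * N)) (t := range m),
        Finset.sum_comm (s := range N) (t := range m)]
      refine Finset.sum_congr rfl fun i _ => ?_
      simp only [Finset.sum_add_distrib, ← Finset.mul_sum]
      congr 2
      · refine Finset.sum_congr rfl fun q _ => ?_
        rw [Finset.sum_comm]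
        exact Finset.sum_congr rfl fun o _ => by rw [e1]
      · rw [e2]
        refine Finset.sum_congr rfl fun q _ => ?_
        rw [Finset.sum_comm (s := range (2 * m * (β * U))) (t := range (β * N))]
        exact Finset.sum_congr rfl fun g _ => Finset.sum_comm
    rw [h1]
    calc _ ≤ ∑ i ∈ range m, ((1 / ((β * U : ℕ) : ℝ)) * (((N : ℝ) * (β * U : ℕ) * n) * τ3) +
        (1 / (U : ℝ)) * (((n : ℝ) * (β * N : ℕ) * U) * τ4)) := by
          refine Finset.sum_le_sum fun i hi => ?_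
          have hi' := Finset.mem_range.1 hi
          exact add_le_add (mul_le_mul_of_nonneg_left (hV i hi') (by positivity))
            (mul_le_mul_of_nonneg_left (hH i hi') (by positivity))
      _ = (N : ℝ) * (β * N) * (2 * m ^ 2 * U * (τ3 + β * τ4)) := by
          rw [Finset.sum_const, nsmul_eq_mul, Finset.card_range, hnR]
          push_cast
          field_simp
      _ ≤ (N : ℝ) * (β * N) * T := mul_le_mul_of_nonneg_left hT (by positivity)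
      _ = _ := by simp [Finset.sum_const, nsmul_eq_mul]; ring
  obtain ⟨n0, hn0', hle⟩ := Finset.exists_le_of_sum_le (Finset.nonempty_range_iff.2 hN.ne') htot
  obtain ⟨g0, hg0', hle⟩ := Finset.exists_le_of_sum_le (Finset.nonempty_range_iff.2 hG.ne') hle
  rw [Finset.mem_range] at hn0' hg0'
  refine ⟨n0, hn0', g0, hg0', ?_⟩
  have hterm : ∀ i < m,
      (1 / ((β * U : ℕ) : ℝ)) * (∑ o ∈ range (β * U), ∑ b ∈ range (2 * m * U),
        d2 i (2 * (m * n0 + i) * (β * U) + o) (g0 * (2 * m * U) + b)) ≤ T ∧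
      (1 / (U : ℝ)) * (∑ o ∈ range U, ∑ a ∈ range (2 * m * (β * U)),
        d1 i (n0 * (2 * m * (β * U)) + a) (2 * (m * g0 + i) * U + o)) ≤ T := by
    intro i hi
    have h1 := Finset.single_le_sum (f := fun i =>
      ((1 / ((β * U : ℕ) : ℝ)) * ∑ o ∈ range (β * U), ∑ b ∈ range (2 * m * U),
        d2 i (2 * (m * n0 + i) * (β * U) + o) (g0 * (2 * m * U) + b) +
      (1 / (U : ℝ)) * ∑ o ∈ range U, ∑ a ∈ range (2 * m * (β * U)),
        d1 i (n0 * (2 * m * (β * U)) + a) (2 * (m * g0 + i) * U + o)))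
      (fun i _ => add_nonneg (mul_nonneg (by positivity)
          (Finset.sum_nonneg fun _ _ => Finset.sum_nonneg fun _ _ => hd2n _ _ _))
        (mul_nonneg (by positivity)
          (Finset.sum_nonneg fun _ _ => Finset.sum_nonneg fun _ _ => hd1n _ _ _)))
      (Finset.mem_range.2 hi)
    have h2 := h1.trans hle
    have h3 : 0 ≤ (1 / ((β * U : ℕ) : ℝ)) * ∑ o ∈ range (β * U), ∑ b ∈ range (2 * m * U),
        d2 i (2 * (m * n0 + i) * (β * U) + o) (g0 * (2 * m * U) + b) :=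
      mul_nonneg (by positivity)
          (Finset.sum_nonneg fun _ _ => Finset.sum_nonneg fun _ _ => hd2n _ _ _)
    have h4 : 0 ≤ (1 / (U : ℝ)) * ∑ o ∈ range U, ∑ a ∈ range (2 * m * (β * U)),
        d1 i (n0 * (2 * m * (β * U)) + a) (2 * (m * g0 + i) * U + o) :=
      mul_nonneg (by positivity)
          (Finset.sum_nonneg fun _ _ => Finset.sum_nonneg fun _ _ => hd1n _ _ _)
    exact ⟨by linarith, by linarith⟩
  have hcol : ∀ i, ∃ o, i < m → o < β * U ∧ ∑ b ∈ range (2 * m * U),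
        d2 i (2 * (m * n0 + i) * (β * U) + o) (g0 * (2 * m * U) + b) ≤ T := by
    intro i
    by_cases hi : i < m
    · obtain ⟨o, ho, ho'⟩ := exists_le_avg hw rfl (hterm i hi).1
      exact ⟨o, fun _ => ⟨ho, ho'⟩⟩
    · exact ⟨0, fun h => absurd h hi⟩
  have hrow : ∀ i, ∃ o, i < m → o < U ∧ ∑ a ∈ range (2 * m * (β * U)),
        d1 i (n0 * (2 * m * (β * U)) + a) (2 * (m * g0 + i) * U + o) ≤ T := by
    intro i
    by_cases hi : i < m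
    · obtain ⟨o, ho, ho'⟩ := exists_le_avg hU rfl (hterm i hi).2
      exact ⟨o, fun _ => ⟨ho, ho'⟩⟩
    · exact ⟨0, fun h => absurd h hi⟩
  choose oc hoc using hcol
  choose or' hor using hrow
  refine ⟨fun i => 2 * (m * n0 + i) * (β * U) + oc i, fun i => 2 * (m * g0 + i) * U + or' i,
    fun i hi => ⟨oc i, (hoc i hi).1, rfl⟩, fun i hi => ⟨or' i, (hor i hi).1, rfl⟩, ?_⟩
  intro i hi j hj
  have hrange : ∀ (W x k o : ℕ), k < m → o < W → x * (2 * m * W) ≤ 2 * (m * x + k) * W + o ∧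
      2 * (m * x + k) * W + o < x * (2 * m * W) + 2 * m * W := by
    intro W x k o hk ho
    have e : 2 * (m * x + k) * W + o = x * (2 * m * W) + (2 * k * W + o) := by ring
    rw [e]
    refine ⟨by omega, ?_⟩
    have : 2 * k * W + o < 2 * m * W := by
      calc 2 * k * W + o < 2 * k * W + W := by omega
        _ = (2 * k + 1) * W := by ring
        _ ≤ 2 * m * W := Nat.mul_le_mul_right _ (by omega)
    omega
  constructor
  · refine (norm_sub_le_sum (G := fun b => h2 i (2 * (m * n0 + i) * (β * U) + oc i) b -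
      g2 (2 * (m * n0 + i) * (β * U) + oc i) b) (A := g0 * (2 * m * U)) (w := 2 * m * U)
      (hrange U g0 j _ hj (hor j hj).1).1 (hrange U g0 j _ hj (hor j hj).1).2
      (hrange U g0 i _ hi (hor i hi).1).1 (hrange U g0 i _ hi (hor i hi).1).2).trans ?_
    refine le_trans (le_of_eq ?_) (hoc i hi).2
    refine Finset.sum_congr rfl fun b _ => ?_
    simp only [hd2def]
    congr 1; abel
  · refine (norm_sub_le_sum (G := fun a => h1 j a (2 * (m * g0 + j) * U + or' j) -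
      g1 a (2 * (m * g0 + j) * U + or' j)) (A := n0 * (2 * m * (β * U))) (w := 2 * m * (β * U))
      (hrange (β * U) n0 i _ hi (hoc i hi).1).1 (hrange (β * U) n0 i _ hi (hoc i hi).1).2
      (hrange (β * U) n0 j _ hj (hoc j hj).1).1 (hrange (β * U) n0 j _ hj (hoc j hj).1).2).trans ?_
    refine le_trans (le_of_eq ?_) (hor j hj).2
    refine Finset.sum_congr rfl fun b _ => ?_
    simp only [hd1def]
    congr 1; abel

end discrete

end Crest.Agent.R254
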