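import Mathlib

set_option autoImplicit false

namespace Crest.Agent.R254

theorem params {D : ℝ} (hD : 1 ≤ D) {m : ℕ} (hm : 0 < m) :
    ∃ κ2 : ℝ, 0 < κ2 ∧ ∀ η : ℝ, 0 < η → ∃ (β N U0 : ℕ) (κ1 : ℝ),
      0 < β ∧ 200 ≤ N ∧ 0 < U0 ∧ 0 < κ1 ∧ ∀ (U n : ℕ) (R : ℝ), U0 ≤ U → n = 2 * m * β * N * U →
        R = 8 * D * U / 20000 →
        ∃ ε2 ε3 τ0 τ1 τ2 τ3 τ4 T : ℝ,
          κ2 + D ^ 2 * κ1 / η ≤ ε2 ∧
          2 * R / n + √(2 * m * κ1) ≤ τ0 ∧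
          2 * R / (β * U) + √(2 * m * κ1) ≤ τ1 ∧
          2 * R / n + √(2 * m * ε2) ≤ τ2 ∧
          κ2 + D ^ 2 * (κ1 + 2 * D * τ1) / η + 2 * D * τ2 ≤ ε3 ∧
          √ε3 + √(2 * m * ε2) ≤ τ3 ∧
          √(κ1 + 2 * D * τ0) + √(2 * m * κ1) ≤ τ4 ∧
          2 * (m : ℝ) ^ 2 * U * (τ3 + β * τ4) ≤ T ∧
          8 * D + 2 * T ≤ U / 20000 / (2 * D) := by
  have hD0 : 0 < D := by linarith
  have hmR : (1 : ℝ) ≤ m := by exact_mod_cast hm
  have hm0 : (0 : ℝ) < m := by linarith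
  obtain ⟨δ, hδdef⟩ : ∃ δ : ℝ, δ = 1 / 20000 / (64 * m ^ 2 * D) := ⟨_, rfl⟩
  have hδ : 0 < δ := by rw [hδdef]; positivity
  have hδ1 : δ ≤ 1 := by
    rw [hδdef, div_div, div_le_one (by positivity)]
    have h1 : (1 : ℝ) ≤ m ^ 2 * D :=
      one_le_mul_of_one_le_of_one_le (one_le_pow₀ hmR) hD
    linarith
  obtain ⟨δ2, hδ2def⟩ : ∃ δ2 : ℝ, δ2 = δ ^ 2 / (16 * D) := ⟨_, rfl⟩
  have hδ2 : 0 < δ2 := by rw [hδ2def]; positivity
  have hδ2δ : δ2 ≤ δ := by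
    rw [hδ2def, div_le_iff₀ (by positivity)]
    have h1 : δ ^ 2 ≤ δ := by rw [sq]; exact mul_le_of_le_one_left hδ.le hδ1
    have h2 : δ ≤ δ * D := le_mul_of_one_le_right hδ.le hD
    linarith
  have hδ2e : 16 * D * δ2 = δ ^ 2 := by rw [hδ2def]; field_simp
  refine ⟨δ2 ^ 2 / (4 * m), by positivity, fun η hη => ?_⟩
  set κ2 := δ2 ^ 2 / (4 * m) with hκ2def
  have hκ2 : 0 < κ2 := by positivity
  -- β
  obtain ⟨β, hβ⟩ := exists_nat_gt (max 1 (4 * (D ^ 2 * (2 * D * (16 * D / 20000))) / (η * δ ^ 2)))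
  have hβ1 : (1 : ℝ) < β := (le_max_left _ _).trans_lt hβ
  have hβ2 : 4 * (D ^ 2 * (2 * D * (16 * D / 20000))) / (η * δ ^ 2) < β :=
    (le_max_right _ _).trans_lt hβ
  have hβ0 : (0 : ℝ) < β := by linarith
  -- θ
  obtain ⟨θ, hθ, hθ1, hθ2, hθ3, hθ4, hθ5⟩ : ∃ θ : ℝ, 0 < θ ∧ θ ≤ 1 ∧
      θ ≤ κ2 * η / D ^ 2 ∧ θ ≤ δ ^ 2 * η / 4 / (3 * D ^ 3) ∧ θ ≤ δ / β ∧
      θ ≤ (δ / β) ^ 2 / 2 / (3 * D) :=
    ⟨min 1 (min (κ2 * η / D ^ 2) (min (δ ^ 2 * η / 4 / (3 * D ^ 3)) (min (δ / β)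
      ((δ / β) ^ 2 / 2 / (3 * D))))), by positivity, min_le_left _ _,
      (min_le_right _ _).trans (min_le_left _ _),
      (min_le_right _ _).trans ((min_le_right _ _).trans (min_le_left _ _)),
      (min_le_right _ _).trans ((min_le_right _ _).trans ((min_le_right _ _).trans
        (min_le_left _ _))),
      (min_le_right _ _).trans ((min_le_right _ _).trans ((min_le_right _ _).trans
        (min_le_right _ _)))⟩
  -- N
  obtain ⟨N, hN⟩ := exists_nat_gt (max 200 (max (8 * D / δ2) (8 * D * (2 * D) * 2 / (δ / β) ^ 2)))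
  have hN1 : (200 : ℝ) < N := (le_max_left _ _).trans_lt hN
  have hN2 : 8 * D / δ2 < N := ((le_max_left _ _).trans (le_max_right _ _)).trans_lt hN
  have hN3 : 8 * D * (2 * D) * 2 / (δ / β) ^ 2 < N :=
    ((le_max_right _ _).trans (le_max_right _ _)).trans_lt hN
  obtain ⟨U0, hU0⟩ := exists_nat_gt (32 * D ^ 2 * 20000)
  have hU0' : (0 : ℝ) < U0 := lt_trans (by positivity) hU0
  refine ⟨β, N, U0, θ ^ 2 / (2 * m), by exact_mod_cast hβ0, by exact_mod_cast hN1.le,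
    by exact_mod_cast hU0', by positivity, ?_⟩
  intro U n R hU hn hR
  have hUR : (U0 : ℝ) ≤ U := by exact_mod_cast hU
  have hUpos : (0 : ℝ) < U := by linarith
  have hN0 : (0 : ℝ) < N := by linarith
  have hnR : (n : ℝ) = 2 * m * β * N * U := by rw [hn]; push_cast; ring
  set κ1 := θ ^ 2 / (2 * m) with hκ1def
  have hκ1 : 0 < κ1 := by positivity
  have hsq : √(2 * m * κ1) = θ := by
    rw [hκ1def, mul_div_cancel₀ _ (by positivity : (2 * (m : ℝ)) ≠ 0), Real.sqrt_sq hθ.le]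
  have hκ1θ : κ1 ≤ θ := by
    rw [hκ1def, div_le_iff₀ (by positivity)]
    have h1 : θ ^ 2 ≤ θ := by rw [sq]; exact mul_le_of_le_one_left hθ.le hθ1
    have h2 : θ ≤ θ * m := le_mul_of_one_le_right hθ.le hmR
    linarith
  -- 2R/n
  have h2R : 2 * R / n ≤ 8 * D / N := by
    rw [hR, hnR, div_le_div_iff₀ (by positivity) hN0]
    have h1 : (1 : ℝ) ≤ m * β := one_le_mul_of_one_le_of_one_le hmR hβ1.le
    have h2 : 0 < D * N * U := by positivity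
    have h3 := mul_le_mul_of_nonneg_left h1 h2.le
    have h4 : 2 * (8 * D * (U : ℝ) / 20000) * N = 16 / 20000 * (D * N * U * 1) := by ring
    have h5 : 8 * D * (2 * (m : ℝ) * β * N * U) = 16 * (D * N * U * (m * β)) := by ring
    rw [h4, h5]
    linarith
  have h2R' : 2 * R / (β * U) = 16 * D / 20000 / β := by
    rw [hR]; field_simp; ring
  have hN2' : 8 * D / N ≤ δ2 := by
    rw [div_le_iff₀ hN0]; rw [div_lt_iff₀ hδ2] at hN2; linarith
  have hN3' : 2 * D * (8 * D / N) ≤ (δ / β) ^ 2 / 2 := by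
    have h3 : 0 < (δ / β) ^ 2 := by positivity
    rw [div_lt_iff₀ h3] at hN3
    rw [mul_div_assoc', div_le_iff₀ hN0]
    linarith
  have hθ2' : D ^ 2 * κ1 / η ≤ κ2 := by
    rw [le_div_iff₀ (by positivity)] at hθ2
    rw [div_le_iff₀ hη]
    have h1 := mul_le_mul_of_nonneg_left hκ1θ (by positivity : 0 ≤ D ^ 2)
    linarith
  have h3D : κ1 + 2 * D * θ ≤ 3 * D * θ := by
    have h1 : θ ≤ D * θ := le_mul_of_one_le_left hθ.le hD
    linarith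
  refine ⟨2 * κ2, δ ^ 2, 8 * D / N + θ, 16 * D / 20000 / β + θ, δ2 + δ2, 2 * δ, 2 * (δ / β),
    2 * (m : ℝ) ^ 2 * U * (4 * δ), ?_, ?_, ?_, ?_, ?_, ?_, ?_, ?_, ?_⟩
  · linarith
  · rw [hsq]; linarith
  · rw [hsq, h2R']
  · have h4 : √(2 * m * (2 * κ2)) = δ2 := by
      rw [hκ2def, show 2 * (m : ℝ) * (2 * (δ2 ^ 2 / (4 * m))) = δ2 ^ 2 by field_simp; ring,
        Real.sqrt_sq hδ2.le]
    rw [h4]; linarith
  · -- ε3
    have h5 : κ2 ≤ δ ^ 2 / 4 := by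
      rw [hκ2def, div_le_div_iff₀ (by positivity) (by norm_num)]
      have h1 : δ2 ^ 2 ≤ δ ^ 2 := pow_le_pow_left₀ hδ2.le hδ2δ 2
      have h2 : δ ^ 2 ≤ δ ^ 2 * m := le_mul_of_one_le_right (by positivity) hmR
      linarith
    have h6 : D ^ 2 * (κ1 + 2 * D * θ) / η ≤ δ ^ 2 / 4 := by
      rw [div_le_iff₀ hη]
      rw [le_div_iff₀ (by positivity)] at hθ3
      have h1 := mul_le_mul_of_nonneg_left h3D (by positivity : 0 ≤ D ^ 2)
      have h2 : D ^ 2 * (3 * D * θ) = θ * (3 * D ^ 3) := by ring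
      linarith
    have h7 : D ^ 2 * (2 * D * (16 * D / 20000 / β)) / η ≤ δ ^ 2 / 4 := by
      rw [div_lt_iff₀ (by positivity)] at hβ2
      rw [div_le_iff₀ hη, ← mul_div_assoc, ← mul_div_assoc, div_le_iff₀ hβ0]
      linarith
    have h8 : 2 * D * (δ2 + δ2) = δ ^ 2 / 4 := by linarith
    have h9 : D ^ 2 * (κ1 + 2 * D * (16 * D / 20000 / β + θ)) / η =
        D ^ 2 * (κ1 + 2 * D * θ) / η + D ^ 2 * (2 * D * (16 * D / 20000 / β)) / η := by
      ring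
    rw [h9]; linarith
  · have h4 : √(2 * m * (2 * κ2)) = δ2 := by
      rw [hκ2def, show 2 * (m : ℝ) * (2 * (δ2 ^ 2 / (4 * m))) = δ2 ^ 2 by field_simp; ring,
        Real.sqrt_sq hδ2.le]
    rw [h4, Real.sqrt_sq hδ.le]; linarith
  · rw [hsq]
    have h5 : √(κ1 + 2 * D * (8 * D / N + θ)) ≤ δ / β := by
      rw [Real.sqrt_le_left (by positivity)]
      rw [le_div_iff₀ (by positivity)] at hθ5
      have h1 : κ1 + 2 * D * (8 * D / N + θ) = (κ1 + 2 * D * θ) + 2 * D * (8 * D / N) := by ring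
      have h2 : 3 * D * θ = θ * (3 * D) := by ring
      linarith
    linarith
  · have h5 : 2 * δ + β * (2 * (δ / β)) = 4 * δ := by field_simp; ring
    rw [h5]
  · have h5 : 2 * (2 * (m : ℝ) ^ 2 * U * (4 * δ)) = U / 20000 / (4 * D) := by
      rw [hδdef]; field_simp; ring
    have h6 : 8 * D ≤ U / 20000 / (4 * D) := by
      rw [div_div, le_div_iff₀ (by positivity)]
      have h1 : 8 * D * (20000 * (4 * D)) = 32 * D ^ 2 * 20000 := by ring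
      linarith
    have h7 : (U : ℝ) / 20000 / (2 * D) = U / 20000 / (4 * D) + U / 20000 / (4 * D) := by
      field_simp; ring
    rw [h5, h7]; linarith

end Crest.Agent.R254
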