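import Crest.Agent.R254.Defs

/-! # Row 254, task T: packing and extension of the map -/

set_option autoImplicit false

open Set Finset Module

namespace Crest.Agent.R254

theorem packing (E : Type*) [NormedAddCommGroup E] [NormedSpace ℝ E] [FiniteDimensional ℝ E]
    {c : ℝ} (hc : 0 < c) : ∃ m0 : ℕ, 0 < m0 ∧ ∀ w : ℕ → E, (∀ i, i < m0 → ‖w i‖ ≤ 1) →
      ∃ i, i < m0 ∧ ∃ j, j < m0 ∧ i ≠ j ∧ ‖w i - w j‖ < c := by
  have : ProperSpace E := FiniteDimensional.proper ℝ E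
  have hK : IsCompact (Metric.closedBall (0 : E) 1) := isCompact_closedBall _ _
  obtain ⟨t, -, htf, ht⟩ := hK.finite_cover_balls (e := c / 2) (by positivity)
  refine ⟨htf.toFinset.card + 1, Nat.succ_pos _, fun w hw => ?_⟩
  have hex : ∀ i ∈ Finset.range (htf.toFinset.card + 1), ∃ x ∈ htf.toFinset, dist (w i) x < c / 2 := by
    intro i hi
    have h1 : w i ∈ Metric.closedBall (0 : E) 1 := by
      rw [mem_closedBall_zero_iff]; exact hw i (Finset.mem_range.1 hi)
    have h2 := ht h1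
    simp only [Set.mem_iUnion, Metric.mem_ball, exists_prop] at h2
    obtain ⟨x, hx, hx2⟩ := h2
    exact ⟨x, by simpa using hx, hx2⟩
  classical
  choose! φ hφ hφ2 using hex
  obtain ⟨i, hi, j, hj, hij, he⟩ := Finset.exists_ne_map_eq_of_card_lt_of_maps_to
    (s := Finset.range (htf.toFinset.card + 1)) (t := htf.toFinset) (by simp) hφ
  refine ⟨i, Finset.mem_range.1 hi, j, Finset.mem_range.1 hj, hij, ?_⟩
  rw [← dist_eq_norm]
  calc dist (w i) (w j) ≤ dist (w i) (φ i) + dist (w j) (φ i) := dist_triangle_right _ _ _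
    _ < c / 2 + c / 2 := by
        have := hφ2 i hi
        have h3 := hφ2 j hj
        rw [← he] at h3
        linarith
    _ = c := by ring

theorem extend_map {B : Type*} [NormedAddCommGroup B] [NormedSpace ℝ B] {S : Set B}
    {Y : Type*} [NormedAddCommGroup Y] [NormedSpace ℝ Y] [FiniteDimensional ℝ Y]
    (f : S → Y) {c C : NNReal} (h1 : LipschitzWith C f) (h2 : AntilipschitzWith c f) :
    ∃ (D : ℝ) (F : B → EuclideanSpace ℝ (Fin (finrank ℝ Y))), 1 ≤ D ∧
      (∀ x y, ‖F x - F y‖ ≤ D * ‖x - y‖) ∧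
      ∀ p ∈ S, ∀ q ∈ S, ‖p - q‖ ≤ D * ‖F p - F q‖ := by
  classical
  let φ : Y ≃L[ℝ] EuclideanSpace ℝ (Fin (finrank ℝ Y)) := toEuclidean
  let g : B → EuclideanSpace ℝ (Fin (finrank ℝ Y)) :=
    fun x => if h : x ∈ S then φ (f ⟨x, h⟩) else 0
  have hφ1 : LipschitzWith _ φ := φ.lipschitz
  have hφ2 : AntilipschitzWith _ φ := φ.antilipschitz
  have hg : LipschitzOnWith (‖(φ : Y →L[ℝ] EuclideanSpace ℝ (Fin (finrank ℝ Y)))‖₊ * C) g S := by
    rw [lipschitzOnWith_iff_restrict]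
    have : S.domRestrict g = φ ∘ f := by
      funext x
      simp [g, Set.domRestrict, x.2]
    rw [this]
    exact hφ1.comp h1
  obtain ⟨F, hF, hFg⟩ := hg.extend_finite_dimension
  have hanti : AntilipschitzWith _ (φ ∘ f) := hφ2.comp h2
  set L1 := lipschitzExtensionConstant (EuclideanSpace ℝ (Fin (finrank ℝ Y))) *
    (‖(φ : Y →L[ℝ] EuclideanSpace ℝ (Fin (finrank ℝ Y)))‖₊ * C)
  set L2 := c * ‖(φ.symm : EuclideanSpace ℝ (Fin (finrank ℝ Y)) →L[ℝ] Y)‖₊
  refine ⟨max 1 (max (L1 : ℝ) (L2 : ℝ)), F, le_max_left _ _, ?_, ?_⟩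
  · intro x y
    have h := hF.dist_le_mul x y
    rw [dist_eq_norm, dist_eq_norm] at h
    refine h.trans (mul_le_mul_of_nonneg_right ?_ (norm_nonneg _))
    exact (le_max_left _ _).trans (le_max_right _ _)
  · intro p hp q hq
    have h := hanti.le_mul_dist ⟨p, hp⟩ ⟨q, hq⟩
    rw [Subtype.dist_eq, dist_eq_norm, dist_eq_norm] at h
    have e1 : F p = (φ ∘ f) ⟨p, hp⟩ := by
      rw [← hFg hp]; simp [g, hp]
    have e2 : F q = (φ ∘ f) ⟨q, hq⟩ := by
      rw [← hFg hq]; simp [g, hq]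
    rw [e1, e2]
    refine h.trans (mul_le_mul_of_nonneg_right ?_ (norm_nonneg _))
    exact (le_max_right _ _).trans (le_max_right _ _)

end Crest.Agent.R254
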