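import Crest.Agent.R254.Grid
import Crest.Agent.R254.Avg
import Crest.Agent.R254.GoodLemmas
import Crest.Agent.R254.Target
import Crest.Agent.R254.Params

/-!
# Row 254: one step of the iteration
-/

set_option autoImplicit false

open Set Finset Module

namespace Crest.Agent.R254

/-- the separation of the displacements contradicts the packing bound -/
theorem packing_contra {E : Type*} [NormedAddCommGroup E] [NormedSpace ℝ E] {m : ℕ} {c R : ℝ}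
    (hR : 0 < R)
    (hpack : ∀ w : ℕ → E, (∀ i, i < m → ‖w i‖ ≤ 1) →
      ∃ i, i < m ∧ ∃ j, j < m ∧ i ≠ j ∧ ‖w i - w j‖ < c)
    (W : ℕ → E) (h1 : ∀ i, i < m → ‖W i‖ ≤ R)
    (h2 : ∀ i, i < m → ∀ j, j < m → i ≠ j → c * R ≤ ‖W i - W j‖) : False := by
  obtain ⟨i, hi, j, hj, hij, h⟩ := hpack (fun i => R⁻¹ • W i) (fun i hi => by
    rw [norm_smul, norm_inv, Real.norm_of_nonneg hR.le, inv_mul_le_iff₀ hR]
    simpa using h1 i hi)
  have h3 := h2 i hi j hj hij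
  rw [← smul_sub, norm_smul, norm_inv, Real.norm_of_nonneg hR.le, inv_mul_lt_iff₀ hR] at h
  linarith

section

variable {B : Type*} [NormedAddCommGroup B] [NormedSpace ℝ B] [CompleteSpace B]
  {E : Type*} [NormedAddCommGroup E] [InnerProductSpace ℝ E] [FiniteDimensional ℝ E]

/-- the core of the step: neither alternative is impossible -/
theorem step_core (P : Par) (V : Vec B) {F : B → E} {D : ℝ} (hD : 1 ≤ D)
    (hF : ∀ x y, ‖F x - F y‖ ≤ D * ‖x - y‖)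
    (hK : ∀ p ∈ K P V, ∀ q ∈ K P V, ‖p - q‖ ≤ D * ‖F p - F q‖)
    {k l U n : ℕ} {p : B} (hkl : k < l) (hU0 : 0 < U) (hU : P.n l = P.n (k + 1) * U)
    (hn : n = 2 * P.m k * P.β k * P.N k * U) (hp : Good P V k p)
    {κ1 κ2 η ε2 ε3 τ0 τ1 τ2 τ3 τ4 T R : ℝ} (hR : R = 8 * D * U / 20000)
    (hκ1 : 0 ≤ κ1) (hκ2 : 0 ≤ κ2) (hη : 0 < η)
    (hpack : ∀ w : ℕ → E, (∀ i, i < P.m k → ‖w i‖ ≤ 1) →
      ∃ i, i < P.m k ∧ ∃ j, j < P.m k ∧ i ≠ j ∧ ‖w i - w j‖ < 1 / (16 * D ^ 2))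
    (hε2 : κ2 + D ^ 2 * κ1 / η ≤ ε2)
    (hτ0 : 2 * R / n + √(2 * P.m k * κ1) ≤ τ0)
    (hτ1 : 2 * R / (P.β k * U) + √(2 * P.m k * κ1) ≤ τ1)
    (hτ2 : 2 * R / n + √(2 * P.m k * ε2) ≤ τ2)
    (hε3 : κ2 + D ^ 2 * (κ1 + 2 * D * τ1) / η + 2 * D * τ2 ≤ ε3)
    (hτ3 : √ε3 + √(2 * P.m k * ε2) ≤ τ3)
    (hτ4 : √(κ1 + 2 * D * τ0) + √(2 * P.m k * κ1) ≤ τ4)
    (hT : 2 * (P.m k : ℝ) ^ 2 * U * (τ3 + P.β k * τ4) ≤ T)
    (hT' : 8 * D + 2 * T ≤ U / 20000 / (2 * D))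
    (hnA : ∀ q, Good P V l q →
      ‖avg F V.e1 V.e2 q (P.s l)‖ ^ 2 ≤ ‖avg F V.e1 V.e2 p (P.s k)‖ ^ 2 + κ1)
    (hnB : ∀ q, Good P V l q →
      ‖avg F V.e1 V.e2 p (P.s k)‖ ^ 2 - η ≤ ‖avg F V.e1 V.e2 q (P.s l)‖ ^ 2 →
      ‖avg F V.e2 V.e1 q (P.s l)‖ ^ 2 ≤ ‖avg F V.e2 V.e1 p (P.s k)‖ ^ 2 + κ2) : False := by
  have hD0 : 0 ≤ D := by linarith
  have hDpos : 0 < D := by linarith
  have hσ : 0 < P.s l := P.s_pos l
  have hσk : 0 < P.s k := P.s_pos k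
  set σ := P.s l with hσdef
  have hmk := P.hm k
  have hβk := P.hβ k
  have hNk : 0 < P.N k := lt_of_lt_of_le (by norm_num) (P.hN k)
  have hMU : P.M k * U = n := by rw [hn]; rfl
  have hnl : P.n l = P.n k * n := by rw [hU, P.n_succ, ← hMU, mul_assoc]
  have hn0 : 0 < n := by rw [hn]; positivity
  have hsk : P.s k = (n : ℝ) * σ := P.s_eq_mul hnl
  have hsk1 : P.s (k + 1) = (U : ℝ) * σ := P.s_eq_mul hU
  have hr : P.r k = U * σ / 20000 := by unfold Par.r; rw [hsk1]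
  have hr0 : 0 < P.r k := P.r_pos k
  have hUR : (0 : ℝ) < U := by exact_mod_cast hU0
  have hRpos : 0 < R := by rw [hR]; positivity
  -- the grid functions
  set g1 : ℕ → ℕ → E := fun a b =>
    edge F V.e2 (p + ((a : ℝ) * σ) • V.e1 + ((b : ℝ) * σ) • V.e2) σ with hg1
  set g2 : ℕ → ℕ → E := fun a b =>
    edge F V.e1 (p + ((a : ℝ) * σ) • V.e1 + ((b : ℝ) * σ) • V.e2) σ with hg2
  set h1 : ℕ → ℕ → ℕ → E := fun i a b =>
    edge F V.e2 (p + P.r k • V.W (i + 1) + ((a : ℝ) * σ) • V.e1 + ((b : ℝ) * σ) • V.e2) σ with hh1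
  set h2 : ℕ → ℕ → ℕ → E := fun i a b =>
    edge F V.e1 (p + P.r k • V.W (i + 1) + ((a : ℝ) * σ) • V.e1 + ((b : ℝ) * σ) • V.e2) σ with hh2
  have e1 : ∀ (q : B) (a b : ℕ),
      edge F V.e2 (q + (((a + 1 : ℕ) : ℝ) * σ) • V.e1 + ((b : ℝ) * σ) • V.e2) σ -
        edge F V.e2 (q + ((a : ℝ) * σ) • V.e1 + ((b : ℝ) * σ) • V.e2) σ =
      avg F V.e1 V.e2 (q + ((a : ℝ) * σ) • V.e1 + ((b : ℝ) * σ) • V.e2) σ := by
    intro q a b
    rw [avg_eq_edge]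
    congr 2
    push_cast
    rw [add_mul, one_mul, add_smul]; abel
  have e2 : ∀ (q : B) (a b : ℕ),
      edge F V.e1 (q + ((a : ℝ) * σ) • V.e1 + (((b + 1 : ℕ) : ℝ) * σ) • V.e2) σ -
        edge F V.e1 (q + ((a : ℝ) * σ) • V.e1 + ((b : ℝ) * σ) • V.e2) σ =
      avg F V.e2 V.e1 (q + ((a : ℝ) * σ) • V.e1 + ((b : ℝ) * σ) • V.e2) σ := by
    intro q a b
    rw [avg_eq_edge]
    congr 2
    push_cast
    rw [add_mul, one_mul, add_smul]; abel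
  have hdisp : ∀ (e : B) (i a b : ℕ),
      ‖edge F e (p + P.r k • V.W (i + 1) + ((a : ℝ) * σ) • V.e1 + ((b : ℝ) * σ) • V.e2) σ -
        edge F e (p + ((a : ℝ) * σ) • V.e1 + ((b : ℝ) * σ) • V.e2) σ‖ ≤ R := by
    intro e i a b
    refine (norm_edge_sub_le hF e _ _ hσ).trans ?_
    have h3 : p + P.r k • V.W (i + 1) + ((a : ℝ) * σ) • V.e1 + ((b : ℝ) * σ) • V.e2 -
        (p + ((a : ℝ) * σ) • V.e1 + ((b : ℝ) * σ) • V.e2) = P.r k • V.W (i + 1) := by abel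
    rw [h3, norm_smul, Real.norm_of_nonneg hr0.le, hr, hR, div_le_iff₀ hσ]
    have h4 := V.hW (i + 1)
    calc D * (U * σ / 20000 * ‖V.W (i + 1)‖) ≤ D * (U * σ / 20000 * 8) := by gcongr
      _ = 8 * D * U / 20000 * σ := by ring
  have hdiff : ∀ q : B, ‖edge F V.e1 q σ - edge F V.e2 q σ‖ ≤ 2 * D := by
    intro q
    have h3 := norm_edge_sub_value_le hD0 hF V.he1 q hσ
    have h4 := norm_edge_sub_value_le hD0 hF V.he2 q hσ
    calc ‖edge F V.e1 q σ - edge F V.e2 q σ‖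
        = ‖(edge F V.e1 q σ - σ⁻¹ • F q) - (edge F V.e2 q σ - σ⁻¹ • F q)‖ := by congr 1; abel
      _ ≤ 2 * D := (norm_sub_le _ _).trans (by linarith)
  -- good cells
  have hbase : ∀ a < n, ∀ b < n, Good P V l (p + ((a : ℝ) * σ) • V.e1 + ((b : ℝ) * σ) • V.e2) :=
    fun a ha b hb => Good.sub P V hp hkl.le hnl ha hb
  have hlt : ∀ (w G x i o : ℕ), i < P.m k → x < G → o < w → 2 * P.m k * G * w = n →
      2 * (P.m k * x + i) * w + o < n := by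
    intro w G x i o hi hx ho hG
    calc 2 * (P.m k * x + i) * w + o < 2 * (P.m k * x + i) * w + w := by omega
      _ = (2 * (P.m k * x + i) + 1) * w := by ring
      _ ≤ (2 * (P.m k * G)) * w := by
          apply Nat.mul_le_mul_right
          have : P.m k * x + P.m k ≤ P.m k * G := by
            rw [← Nat.mul_succ]; exact Nat.mul_le_mul_left _ hx
          omega
      _ = n := by rw [← hG]; ring
  have hVgood : ∀ i < P.m k, ∀ q < P.N k, ∀ o < P.β k * U, ∀ b < n,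
      Good P V l (p + P.r k • V.W (i + 1) +
        (((2 * (P.m k * q + i) * (P.β k * U) + o : ℕ) : ℝ) * σ) • V.e1 +
        ((b : ℝ) * σ) • V.e2) := by
    intro i hi q hq o ho b hb
    exact Good.dispV P V hp hkl hU hi ho
      (by rw [hMU]; exact hlt _ (P.N k) _ _ _ hi hq ho (by rw [hn]; ring)) (by rw [hMU]; exact hb)
  have hHgood : ∀ i < P.m k, ∀ a < n, ∀ g < P.β k * P.N k, ∀ o < U,
      Good P V l (p + P.r k • V.W (i + 1) + ((a : ℝ) * σ) • V.e1 +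
        (((2 * (P.m k * g + i) * U + o : ℕ) : ℝ) * σ) • V.e2) := by
    intro i hi a ha g hg o ho
    exact Good.dispH P V hp hkl hU hi (by rw [hMU]; exact ha) ho
      (by rw [hMU]; exact hlt _ (P.β k * P.N k) _ _ _ hi hg ho (by rw [hn]; ring))
  -- apply the discrete lemma
  obtain ⟨n0, hn0', g0, hg0', α, γ, hα, hγ, hdrift⟩ := discrete (E := E) (n := n) (R := R)
    (ε2 := ε2) (ε3 := ε3) (τ0 := τ0) (τ1 := τ1) (τ2 := τ2) (τ3 := τ3) (τ4 := τ4) (T := T)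
    (κ1 := κ1) (κ2 := κ2) (η := η) (D := D)
    (g1 := g1) (g2 := g2) (h1 := h1) (h2 := h2)
    (V1 := avg F V.e1 V.e2 p (P.s k)) (V2 := avg F V.e2 V.e1 p (P.s k))
    hmk hβk hNk hU0 hn hD0 hκ1 hκ2 hη
    (norm_avg_le hD0 hF V.he1 p hσk) (norm_avg_le hD0 hF V.he2 p hσk)
    (fun a b => by simp only [hg2]; rw [e2]; exact norm_avg_le hD0 hF V.he2 _ hσ)
    (fun i a b => by simp only [hh2]; rw [e2]; exact norm_avg_le hD0 hF V.he2 _ hσ)
    (fun i a b => hdisp V.e2 i a b) (fun i a b => hdisp V.e1 i a b)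
    (by
      rw [hsk, avg_mul hF V.e1 V.e2 p hσ hn0]
      refine Finset.sum_congr rfl fun a _ => Finset.sum_congr rfl fun b _ => ?_
      simp only [hg1]; rw [e1])
    (by
      rw [hsk, avg_mul hF V.e2 V.e1 p hσ hn0, Finset.sum_comm]
      refine Finset.sum_congr rfl fun a _ => Finset.sum_congr rfl fun b _ => ?_
      simp only [hg2]; rw [e2]
      congr 1; abel)
    (fun a ha b hb => by simp only [hg1]; rw [e1]; exact hnA _ (hbase a ha b hb))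
    (fun i hi q hq o ho b hb => by
      simp only [hh1]; rw [e1]; exact hnA _ (hVgood i hi q hq o ho b hb))
    (fun i hi a ha g hg o ho => by
      simp only [hh1]; rw [e1]; exact hnA _ (hHgood i hi a ha g hg o ho))
    (fun a ha b hb => by
      simp only [hg1, hg2]; rw [e1, e2]; exact hnB _ (hbase a ha b hb))
    (fun i hi q hq o ho b hb => by
      simp only [hh1, hh2]; rw [e1, e2]; exact hnB _ (hVgood i hi q hq o ho b hb))
    hε2 hτ0 hτ1 hτ2 hε3 hτ3 hτ4 hT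
  -- the displacements at the selected corners
  refine packing_contra (E := E) (R := R) (c := 1 / (16 * D ^ 2)) (m := P.m k) hRpos hpack
    (fun i => h1 i (α i) (γ i) - g1 (α i) (γ i)) (fun i _ => hdisp V.e2 i _ _) ?_
  intro i hi j hj hij
  obtain ⟨oi, hoi, hαi⟩ := hα i hi
  obtain ⟨oj, hoj, hγj⟩ := hγ j hj
  have hαn : α i < n := by
    rw [hαi]; exact hlt _ (P.N k) _ _ _ hi hn0' hoi (by rw [hn]; ring)
  have hγn : γ j < n := by
    rw [hγj]; exact hlt _ (P.β k * P.N k) _ _ _ hj hg0' hoj (by rw [hn]; ring)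
  have hmem1 : p + P.r k • V.W (i + 1) + ((α i : ℝ) * σ) • V.e1 + ((γ j : ℝ) * σ) • V.e2
      ∈ K P V := by
    have := hVgood i hi n0 hn0' oi hoi (γ j) hγn
    rw [← hαi] at this
    exact Good.mem P V this
  have hmem2 : p + P.r k • V.W (j + 1) + ((α i : ℝ) * σ) • V.e1 + ((γ j : ℝ) * σ) • V.e2
      ∈ K P V := by
    have := hHgood j hj (α i) hαn g0 hg0' oj hoj
    rw [← hγj] at this
    exact Good.mem P V this
  have hcross := hK _ hmem1 _ hmem2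
  have hdist : P.r k ≤ ‖p + P.r k • V.W (i + 1) + ((α i : ℝ) * σ) • V.e1 + ((γ j : ℝ) * σ) • V.e2 -
      (p + P.r k • V.W (j + 1) + ((α i : ℝ) * σ) • V.e1 + ((γ j : ℝ) * σ) • V.e2)‖ := by
    have h3 : p + P.r k • V.W (i + 1) + ((α i : ℝ) * σ) • V.e1 + ((γ j : ℝ) * σ) • V.e2 -
        (p + P.r k • V.W (j + 1) + ((α i : ℝ) * σ) • V.e1 + ((γ j : ℝ) * σ) • V.e2) =
        P.r k • (V.W (i + 1) - V.W (j + 1)) := by
      rw [smul_sub]; abel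
    have h4 := V.hsep (i + 1) (j + 1) (by omega) 0 0
    rw [zero_smul, zero_smul, zero_add, zero_add] at h4
    rw [h3, norm_smul, Real.norm_of_nonneg hr0.le]
    nlinarith
  set Pi := p + P.r k • V.W (i + 1) + ((α i : ℝ) * σ) • V.e1 + ((γ j : ℝ) * σ) • V.e2 with hPi
  set Pj := p + P.r k • V.W (j + 1) + ((α i : ℝ) * σ) • V.e1 + ((γ j : ℝ) * σ) • V.e2 with hPj
  -- separation of edge values at the crossing
  have hFsep : (U : ℝ) / 20000 / D ≤ ‖σ⁻¹ • F Pi - σ⁻¹ • F Pj‖ := by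
    rw [← smul_sub, norm_smul, norm_inv, Real.norm_of_nonneg hσ.le]
    have h3 : U * σ / 20000 ≤ D * ‖F Pi - F Pj‖ := by rw [← hr]; exact hdist.trans hcross
    rw [div_le_iff₀ hDpos]
    calc (U : ℝ) / 20000 = σ⁻¹ * (U * σ / 20000) := by field_simp
      _ ≤ σ⁻¹ * (D * ‖F Pi - F Pj‖) := mul_le_mul_of_nonneg_left h3 (by positivity)
      _ = σ⁻¹ * ‖F Pi - F Pj‖ * D := by ring
  have hv1 := norm_edge_sub_value_le hD0 hF V.he1 Pi hσ
  have hv2 := norm_edge_sub_value_le hD0 hF V.he2 Pj hσ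
  have hcr : (U : ℝ) / 20000 / D - 4 * D ≤
      ‖(h2 i (α i) (γ j) - g2 (α i) (γ j)) - (h1 j (α i) (γ j) - g1 (α i) (γ j))‖ := by
    have h3 : σ⁻¹ • F Pi - σ⁻¹ • F Pj =
        ((h2 i (α i) (γ j) - g2 (α i) (γ j)) - (h1 j (α i) (γ j) - g1 (α i) (γ j))) +
        (g2 (α i) (γ j) - g1 (α i) (γ j)) - (edge F V.e1 Pi σ - σ⁻¹ • F Pi) +
        (edge F V.e2 Pj σ - σ⁻¹ • F Pj) := by
      simp only [hh1, hh2]
      abel
    have h4 : ‖g2 (α i) (γ j) - g1 (α i) (γ j)‖ ≤ 2 * D := hdiff _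
    have h5 := norm_add_le (((h2 i (α i) (γ j) - g2 (α i) (γ j)) -
        (h1 j (α i) (γ j) - g1 (α i) (γ j))) +
        (g2 (α i) (γ j) - g1 (α i) (γ j)) - (edge F V.e1 Pi σ - σ⁻¹ • F Pi))
        (edge F V.e2 Pj σ - σ⁻¹ • F Pj)
    have h6 := norm_sub_le (((h2 i (α i) (γ j) - g2 (α i) (γ j)) -
        (h1 j (α i) (γ j) - g1 (α i) (γ j))) +
        (g2 (α i) (γ j) - g1 (α i) (γ j))) (edge F V.e1 Pi σ - σ⁻¹ • F Pi)
    have h7 := norm_add_le ((h2 i (α i) (γ j) - g2 (α i) (γ j)) -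
        (h1 j (α i) (γ j) - g1 (α i) (γ j))) (g2 (α i) (γ j) - g1 (α i) (γ j))
    rw [← h3] at h5
    linarith
  have hlink : ‖(h2 i (α i) (γ i) - g2 (α i) (γ i)) - (h1 i (α i) (γ i) - g1 (α i) (γ i))‖
      ≤ 4 * D := by
    have h3 : (h2 i (α i) (γ i) - g2 (α i) (γ i)) - (h1 i (α i) (γ i) - g1 (α i) (γ i)) =
        (h2 i (α i) (γ i) - h1 i (α i) (γ i)) - (g2 (α i) (γ i) - g1 (α i) (γ i)) := by abel
    rw [h3]
    refine (norm_sub_le _ _).trans ?_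
    have h4 : ‖h2 i (α i) (γ i) - h1 i (α i) (γ i)‖ ≤ 2 * D := hdiff _
    have h5 : ‖g2 (α i) (γ i) - g1 (α i) (γ i)‖ ≤ 2 * D := hdiff _
    linarith
  obtain ⟨hd1, hd2⟩ := hdrift i hi j hj
  -- combine
  have hfin : (U : ℝ) / 20000 / D - 8 * D - 2 * T ≤
      ‖(h1 i (α i) (γ i) - g1 (α i) (γ i)) - (h1 j (α j) (γ j) - g1 (α j) (γ j))‖ := by
    set A1 := h2 i (α i) (γ j) - g2 (α i) (γ j)
    set A2 := h1 j (α i) (γ j) - g1 (α i) (γ j)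
    set A3 := h2 i (α i) (γ i) - g2 (α i) (γ i)
    set A4 := h1 i (α i) (γ i) - g1 (α i) (γ i)
    set A5 := h1 j (α j) (γ j) - g1 (α j) (γ j)
    have h3 : A1 - A2 = ((A1 - A3) + (A3 - A4) + (A4 - A5)) - (A2 - A5) := by abel
    have h4 := norm_sub_le ((A1 - A3) + (A3 - A4) + (A4 - A5)) (A2 - A5)
    have h5 := norm_add_le ((A1 - A3) + (A3 - A4)) (A4 - A5)
    have h6 := norm_add_le (A1 - A3) (A3 - A4)
    rw [← h3] at h4
    linarith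
  refine le_trans ?_ hfin
  have h3 : 1 / (16 * D ^ 2) * R = U / 20000 / (2 * D) := by
    rw [hR]; field_simp; ring
  have h4 : (U : ℝ) / 20000 / D = U / 20000 / (2 * D) + U / 20000 / (2 * D) := by
    field_simp; ring
  rw [h3]
  linarith

end

theorem one_step (E : Type*) [NormedAddCommGroup E] [InnerProductSpace ℝ E]
    [FiniteDimensional ℝ E] {D : ℝ} (hD : 1 ≤ D) :
    ∃ (m : ℕ) (κ2 : ℝ), 0 < m ∧ 0 < κ2 ∧ ∀ η : ℝ, 0 < η →
      ∃ (β N U0 : ℕ) (κ1 : ℝ), 0 < β ∧ 200 ≤ N ∧ 0 < κ1 ∧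
        ∀ (B : Type*) [NormedAddCommGroup B] [NormedSpace ℝ B] [CompleteSpace B]
          (P : Par) (V : Vec B) (F : B → E),
          (∀ x y, ‖F x - F y‖ ≤ D * ‖x - y‖) →
          (∀ p ∈ K P V, ∀ q ∈ K P V, ‖p - q‖ ≤ D * ‖F p - F q‖) →
          ∀ (k l : ℕ) (p : B), P.m k = m → P.β k = β → P.N k = N → k < l →
            U0 * P.n (k + 1) ≤ P.n l → Good P V k p →
            (∃ q, Good P V l q ∧
              ‖avg F V.e1 V.e2 p (P.s k)‖ ^ 2 + κ1 < ‖avg F V.e1 V.e2 q (P.s l)‖ ^ 2) ∨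
            (∃ q, Good P V l q ∧
              ‖avg F V.e1 V.e2 p (P.s k)‖ ^ 2 - η ≤ ‖avg F V.e1 V.e2 q (P.s l)‖ ^ 2 ∧
              ‖avg F V.e2 V.e1 p (P.s k)‖ ^ 2 + κ2 ≤ ‖avg F V.e2 V.e1 q (P.s l)‖ ^ 2) := by
  have hD0 : 0 < D := by linarith
  obtain ⟨m, hm, hpack⟩ := packing E (c := 1 / (16 * D ^ 2)) (by positivity)
  obtain ⟨κ2, hκ2, hpar⟩ := params hD hm
  refine ⟨m, κ2, hm, hκ2, fun η hη => ?_⟩
  obtain ⟨β, N, U0, κ1, hβ, hN, hU0, hκ1, hnum⟩ := hpar η hη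
  refine ⟨β, N, U0, κ1, hβ, hN, hκ1, ?_⟩
  intro B _ _ _ P V F hF hK k l p hmk hβk hNk hkl hUl hp
  obtain ⟨U, hU⟩ := P.n_dvd (show k + 1 ≤ l from hkl)
  have hnk := P.n_pos (k + 1)
  have hUU : U0 ≤ U := by
    rw [hU, mul_comm] at hUl
    exact Nat.le_of_mul_le_mul_left hUl hnk
  obtain ⟨ε2, ε3, τ0, τ1, τ2, τ3, τ4, T, hε2, hτ0, hτ1, hτ2, hε3, hτ3, hτ4, hT, hT'⟩ :=
    hnum U (2 * m * β * N * U) (8 * D * U / 20000) hUU rfl rfl
  by_contra hcon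
  push Not at hcon
  obtain ⟨hA, hB⟩ := hcon
  subst hmk hβk hNk
  exact step_core P V hD hF hK hkl (lt_of_lt_of_le hU0 hUU) hU rfl hp rfl hκ1.le hκ2.le hη hpack
    hε2 hτ0 hτ1 hτ2 hε3 hτ3 hτ4 hT hT' hA (fun q hq h => (hB q hq h).le)

end Crest.Agent.R254
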