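import Crest.Agent.R254.ParLemmas
import Crest.Agent.R254.GoodLemmas
import Crest.Agent.R254.Avg
import Crest.Agent.R254.Step

/-! Task I: iteration of the one-step lemma; the set `K` has no bi-Lipschitz image. -/

set_option autoImplicit false

open Set Finset Module

namespace Crest.Agent.R254

section iterate

variable {E : Type*} [NormedAddCommGroup E] [InnerProductSpace ℝ E] [FiniteDimensional ℝ E]
  {B : Type*} [NormedAddCommGroup B] [NormedSpace ℝ B] [CompleteSpace B]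

/-- Refinement: some subsquare of a deeper level has an at least as large average slope. -/
theorem exists_sub_ge (P : Par) (V : Vec B) {F : B → E} {D : ℝ}
    (hF : ∀ x y, ‖F x - F y‖ ≤ D * ‖x - y‖) {k l : ℕ} (hkl : k ≤ l) {p : B}
    (hp : Good P V k p) :
    ∃ q, Good P V l q ∧ ‖avg F V.e1 V.e2 p (P.s k)‖ ≤ ‖avg F V.e1 V.e2 q (P.s l)‖ := by
  obtain ⟨c, hc⟩ := P.n_dvd hkl
  have hcpos : 0 < c := by
    rcases Nat.eq_zero_or_pos c with h | h
    · have := P.n_pos l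
      rw [hc, h] at this
      simp at this
    · exact h
  have hs : P.s k = (c : ℝ) * P.s l := P.s_eq_mul hc
  have hmul := avg_mul hF V.e1 V.e2 p (P.s_pos l) hcpos
  rw [← hs] at hmul
  by_contra hcon
  push Not at hcon
  have hlt : ∀ a ∈ range c, ∀ b ∈ range c,
      ‖avg F V.e1 V.e2 (p + ((a : ℝ) * P.s l) • V.e1 + ((b : ℝ) * P.s l) • V.e2) (P.s l)‖ <
        ‖avg F V.e1 V.e2 p (P.s k)‖ := fun a ha b hb =>
    hcon _ (Good.sub P V hp hkl hc (Finset.mem_range.1 ha) (Finset.mem_range.1 hb))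
  have hne : (range c).Nonempty := ⟨0, Finset.mem_range.2 hcpos⟩
  have h1 : ((c : ℝ) ^ 2) * ‖avg F V.e1 V.e2 p (P.s k)‖ <
      ((c : ℝ) ^ 2) * ‖avg F V.e1 V.e2 p (P.s k)‖ := by
    calc ((c : ℝ) ^ 2) * ‖avg F V.e1 V.e2 p (P.s k)‖
        = ‖((c : ℝ) ^ 2) • avg F V.e1 V.e2 p (P.s k)‖ := by
          rw [norm_smul, Real.norm_of_nonneg (by positivity)]
      _ = ‖∑ a ∈ range c, ∑ b ∈ range c,
            avg F V.e1 V.e2 (p + ((a : ℝ) * P.s l) • V.e1 + ((b : ℝ) * P.s l) • V.e2) (P.s l)‖ := by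
          rw [hmul]
      _ ≤ ∑ a ∈ range c, ∑ b ∈ range c,
            ‖avg F V.e1 V.e2 (p + ((a : ℝ) * P.s l) • V.e1 + ((b : ℝ) * P.s l) • V.e2) (P.s l)‖ :=
          (norm_sum_le _ _).trans (Finset.sum_le_sum fun a _ => norm_sum_le _ _)
      _ < ∑ a ∈ range c, ∑ b ∈ range c, ‖avg F V.e1 V.e2 p (P.s k)‖ :=
          Finset.sum_lt_sum_of_nonempty hne fun a ha =>
            Finset.sum_lt_sum_of_nonempty hne fun b hb => hlt a ha b hb
      _ = ((c : ℝ) ^ 2) * ‖avg F V.e1 V.e2 p (P.s k)‖ := by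
          simp [Finset.sum_const, Finset.card_range]; ring
  exact lt_irrefl _ h1

end iterate

theorem no_embedding (E : Type*) [NormedAddCommGroup E] [InnerProductSpace ℝ E]
    [FiniteDimensional ℝ E] {D : ℝ} (hD : 1 ≤ D)
    (B : Type*) [NormedAddCommGroup B] [NormedSpace ℝ B] [CompleteSpace B]
    (P : Par) (hP : P.Rich) (V : Vec B) (F : B → E)
    (hF : ∀ x y, ‖F x - F y‖ ≤ D * ‖x - y‖)
    (hK : ∀ p ∈ K P V, ∀ q ∈ K P V, ‖p - q‖ ≤ D * ‖F p - F q‖) : False := by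
  obtain ⟨m, κ2, hm, hκ2, hstep⟩ := one_step E hD
  set a1 : ℕ → B → ℝ := fun k p => ‖avg F V.e1 V.e2 p (P.s k)‖ ^ 2 with ha1
  set a2 : ℕ → B → ℝ := fun k p => ‖avg F V.e2 V.e1 p (P.s k)‖ ^ 2 with ha2
  have hD0 : 0 ≤ D := by linarith
  have ha1D : ∀ k p, a1 k p ≤ D ^ 2 := fun k p =>
    pow_le_pow_left₀ (norm_nonneg _) (norm_avg_le hD0 hF V.he1 p (P.s_pos k)) 2
  have ha2D : ∀ k p, a2 k p ≤ D ^ 2 := fun k p =>
    pow_le_pow_left₀ (norm_nonneg _) (norm_avg_le hD0 hF V.he2 p (P.s_pos k)) 2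
  set S : Set ℝ := {x | ∃ k p, Good P V k p ∧ x = a1 k p} with hS
  have hSb : BddAbove S := ⟨D ^ 2, by
    rintro x ⟨k, p, -, rfl⟩
    exact ha1D k p⟩
  have hSne : S.Nonempty := ⟨a1 0 0, 0, 0, good_zero P V, rfl⟩
  have hle : ∀ k p, Good P V k p → a1 k p ≤ sSup S := fun k p h =>
    le_csSup hSb ⟨k, p, h, rfl⟩
  -- the iteration
  have key : ∀ L : ℕ, ∃ κ : ℝ, 0 < κ ∧ ∃ m' β' N' : ℕ, 0 < m' ∧ 0 < β' ∧ 200 ≤ N' ∧
      ∀ k p, P.m k = m' → P.β k = β' → P.N k = N' → Good P V k p → sSup S - κ ≤ a1 k p →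
        ∃ l q, Good P V l q ∧ a2 k p + L * κ2 ≤ a2 l q := by
    intro L
    induction L with
    | zero =>
      exact ⟨1, one_pos, 1, 1, 200, one_pos, one_pos, le_rfl,
        fun k p _ _ _ hp _ => ⟨k, p, hp, by simp⟩⟩
    | succ L ih =>
      obtain ⟨κ, hκ, m', β', N', hm', hβ', hN', hrec⟩ := ih
      obtain ⟨β, N, U0, κ1, hβ, hN, hκ1, hone⟩ := hstep (κ / 2) (half_pos hκ)
      refine ⟨min (κ / 2) (κ1 / 2), lt_min (half_pos hκ) (half_pos hκ1), m, β, N, hm, hβ, hN,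
        fun k p hmk hβk hNk hp hsup => ?_⟩
      obtain ⟨L0, hL0⟩ := P.exists_n_ge (k + 1) U0
      obtain ⟨l, hl, hml, hβl, hNl⟩ := hP m' β' N' (max L0 (k + 1)) hm' hβ' hN'
      have hkl : k < l := lt_of_lt_of_le (Nat.lt_succ_self k) ((le_max_right _ _).trans hl)
      have hUl : U0 * P.n (k + 1) ≤ P.n l := hL0 l ((le_max_left _ _).trans hl)
      rcases hone B P V F hF hK k l p hmk hβk hNk hkl hUl hp with ⟨q, hq, hlt⟩ | ⟨q, hq, h1, h2⟩
      · exfalso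
        have h3 := hle l q hq
        have h4 : min (κ / 2) (κ1 / 2) ≤ κ1 / 2 := min_le_right _ _
        have h5 : a1 k p + κ1 < a1 l q := hlt
        linarith
      · have h4 : min (κ / 2) (κ1 / 2) ≤ κ / 2 := min_le_left _ _
        have h1' : a1 k p - κ / 2 ≤ a1 l q := h1
        have h2' : a2 k p + κ2 ≤ a2 l q := h2
        obtain ⟨l', q', hq', h6⟩ := hrec l q hml hβl hNl hq (by linarith)
        refine ⟨l', q', hq', ?_⟩
        push_cast
        linarith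
  obtain ⟨L, hL⟩ := exists_nat_gt (D ^ 2 / κ2)
  obtain ⟨κ, hκ, m', β', N', hm', hβ', hN', hrec⟩ := key L
  obtain ⟨x, ⟨k0, p0, hp0, rfl⟩, hx⟩ := exists_lt_of_lt_csSup hSne
    (show sSup S - κ < sSup S by linarith)
  obtain ⟨l, hl, hml, hβl, hNl⟩ := hP m' β' N' k0 hm' hβ' hN'
  obtain ⟨q, hq, hge⟩ := exists_sub_ge P V hF hl hp0
  have hge' : a1 k0 p0 ≤ a1 l q := pow_le_pow_left₀ (norm_nonneg _) hge 2
  obtain ⟨l', q', hq', h6⟩ := hrec l q hml hβl hNl hq (by linarith)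
  have h7 := ha2D l' q'
  have h8 : 0 ≤ a2 l q := by positivity
  have h9 : D ^ 2 < L * κ2 := (div_lt_iff₀ hκ2).1 hL
  linarith

end Crest.Agent.R254
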