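import Crest.Agent.R254.Defs
import Crest.Agent.R254.ParLemmas
import Crest.Agent.R254.Avg
import Crest.Agent.R254.GoodLemmas

/-! # Row 254, task I: the iteration -/

set_option autoImplicit false

open Set Finset Module

namespace Crest.Agent.R254


/-- Refining a good square does not decrease the slope norm, for a suitable sub-square. -/
theorem exists_refine {B : Type*} [NormedAddCommGroup B] [NormedSpace ℝ B] [CompleteSpace B]
    {E : Type*} [NormedAddCommGroup E] [NormedSpace ℝ E] [CompleteSpace E]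
    (P : Par) (V : Vec B) {F : B → E} {D : ℝ} (hF : ∀ x y, ‖F x - F y‖ ≤ D * ‖x - y‖)
    {k l : ℕ} (hkl : k ≤ l) {p : B} (hp : Good P V k p) :
    ∃ q, Good P V l q ∧ ‖avg F V.e1 V.e2 p (P.s k)‖ ≤ ‖avg F V.e1 V.e2 q (P.s l)‖ := by
  obtain ⟨c, hc⟩ := P.n_dvd hkl
  have hcpos : 0 < c := by
    rcases Nat.eq_zero_or_pos c with h0 | h0
    · subst h0
      have := P.n_pos l
      simp at hc; omega
    · exact h0
  by_contra hcon
  push Not at hcon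
  have hs := P.s_eq_mul hc
  have h1 := avg_mul hF V.e1 V.e2 p (P.s_pos l) hcpos
  rw [← hs] at h1
  have h2 : ∀ a ∈ range c, ∀ b ∈ range c,
      ‖avg F V.e1 V.e2 (p + ((a : ℝ) * P.s l) • V.e1 + ((b : ℝ) * P.s l) • V.e2) (P.s l)‖
        < ‖avg F V.e1 V.e2 p (P.s k)‖ := by
    intro a ha b hb
    rw [Finset.mem_range] at ha hb
    exact hcon _ (Good.sub P V hp hkl hc ha hb)
  have hne : (range c).Nonempty := ⟨0, by simpa using hcpos⟩
  have h3 : ‖∑ a ∈ range c, ∑ b ∈ range c,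
      avg F V.e1 V.e2 (p + ((a : ℝ) * P.s l) • V.e1 + ((b : ℝ) * P.s l) • V.e2) (P.s l)‖
      < ∑ a ∈ range c, ∑ b ∈ range c, ‖avg F V.e1 V.e2 p (P.s k)‖ := by
    refine (norm_sum_le _ _).trans_lt ?_
    refine Finset.sum_lt_sum_of_nonempty hne fun a ha => ?_
    refine (norm_sum_le _ _).trans_lt ?_
    exact Finset.sum_lt_sum_of_nonempty hne fun b hb => h2 a ha b hb
  rw [← h1, norm_smul] at h3
  simp only [Finset.sum_const, Finset.card_range, nsmul_eq_mul] at h3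
  have h4 : ‖((c : ℝ) ^ 2)‖ = (c : ℝ) ^ 2 := by
    rw [Real.norm_eq_abs, abs_of_nonneg (by positivity)]
  rw [h4] at h3
  have : (c : ℝ) ^ 2 * ‖avg F V.e1 V.e2 p (P.s k)‖ = c * (c * ‖avg F V.e1 V.e2 p (P.s k)‖) := by
    ring
  linarith

theorem no_embedding_of_one_step (E : Type*) [NormedAddCommGroup E] [InnerProductSpace ℝ E]
    [FiniteDimensional ℝ E] {D : ℝ} (hD : 1 ≤ D)
    (B : Type*) [NormedAddCommGroup B] [NormedSpace ℝ B] [CompleteSpace B]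
    (P : Par) (hP : P.Rich) (V : Vec B) (F : B → E)
    (hF : ∀ x y, ‖F x - F y‖ ≤ D * ‖x - y‖)
    (hstep : ∃ (m : ℕ) (κ2 : ℝ), 0 < m ∧ 0 < κ2 ∧ ∀ η : ℝ, 0 < η →
      ∃ (β N U0 : ℕ) (κ1 : ℝ), 0 < β ∧ 200 ≤ N ∧ 0 < κ1 ∧
        ∀ (k l : ℕ) (p : B), P.m k = m → P.β k = β → P.N k = N → k < l →
          U0 * P.n (k + 1) ≤ P.n l → Good P V k p →
          (∃ q, Good P V l q ∧
            ‖avg F V.e1 V.e2 p (P.s k)‖ ^ 2 + κ1 < ‖avg F V.e1 V.e2 q (P.s l)‖ ^ 2) ∨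
          (∃ q, Good P V l q ∧
            ‖avg F V.e1 V.e2 p (P.s k)‖ ^ 2 - η ≤ ‖avg F V.e1 V.e2 q (P.s l)‖ ^ 2 ∧
            ‖avg F V.e2 V.e1 p (P.s k)‖ ^ 2 + κ2 ≤ ‖avg F V.e2 V.e1 q (P.s l)‖ ^ 2)) :
    False := by
  have : CompleteSpace E := FiniteDimensional.complete ℝ E
  obtain ⟨m, κ2, hm, hκ2, hstep⟩ := hstep
  -- the supremum
  set S : Set ℝ := {v | ∃ k p, Good P V k p ∧ v = ‖avg F V.e1 V.e2 p (P.s k)‖ ^ 2} with hS
  have hV1 : ∀ k p, ‖avg F V.e1 V.e2 p (P.s k)‖ ≤ D := fun k p =>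
    norm_avg_le (by linarith) hF V.he1 p (P.s_pos k)
  have hV2 : ∀ k p, ‖avg F V.e2 V.e1 p (P.s k)‖ ≤ D := fun k p =>
    norm_avg_le (by linarith) hF V.he2 p (P.s_pos k)
  have hSb : BddAbove S := by
    refine ⟨D ^ 2, ?_⟩
    rintro v ⟨k, p, -, rfl⟩
    exact pow_le_pow_left₀ (norm_nonneg _) (hV1 k p) 2
  have hSne : S.Nonempty := ⟨_, 0, 0, good_zero P V, rfl⟩
  set M1 : ℝ := sSup S with hM1
  have hle : ∀ k p, Good P V k p → ‖avg F V.e1 V.e2 p (P.s k)‖ ^ 2 ≤ M1 := fun k p h =>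
    le_csSup hSb ⟨k, p, h, rfl⟩
  -- the iteration
  have key : ∀ L : ℕ, ∃ (κ : ℝ) (β N : ℕ), 0 < κ ∧ 0 < β ∧ 200 ≤ N ∧
      ∀ k p, P.m k = m → P.β k = β → P.N k = N → Good P V k p →
        M1 - κ ≤ ‖avg F V.e1 V.e2 p (P.s k)‖ ^ 2 →
        ∃ k' q, Good P V k' q ∧
          ‖avg F V.e2 V.e1 p (P.s k)‖ ^ 2 + L * κ2 ≤ ‖avg F V.e2 V.e1 q (P.s k')‖ ^ 2 := by
    intro L
    induction L with
    | zero =>
      refine ⟨1, 1, 200, one_pos, one_pos, le_rfl, fun k p _ _ _ hg _ => ⟨k, p, hg, by simp⟩⟩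
    | succ L ih =>
      obtain ⟨κ, β, N, hκ, hβ, hN, hL⟩ := ih
      obtain ⟨β', N', U0, κ1, hβ', hN', hκ1, hone⟩ := hstep (κ / 2) (by positivity)
      refine ⟨min (κ / 2) (κ1 / 2), β', N', by positivity, hβ', hN', ?_⟩
      intro k p hk1 hk2 hk3 hgood hM
      obtain ⟨l0, hl0⟩ := P.exists_n_ge (k + 1) U0
      obtain ⟨l, hlge, hl1, hl2, hl3⟩ := hP m β N (max l0 (k + 1)) hm hβ hN
      have hkl : k < l := lt_of_lt_of_le (Nat.lt_succ_self k) ((le_max_right _ _).trans hlge)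
      have hU : U0 * P.n (k + 1) ≤ P.n l := hl0 l ((le_max_left _ _).trans hlge)
      have hm1 := min_le_left (κ / 2) (κ1 / 2)
      have hm2 := min_le_right (κ / 2) (κ1 / 2)
      rcases hone k l p hk1 hk2 hk3 hkl hU hgood with
        ⟨q, hq, hq1⟩ | ⟨q, hq, hq1, hq2⟩
      · exfalso
        have := hle l q hq
        linarith
      · obtain ⟨k', q', hq', hq'2⟩ := hL l q hl1 hl2 hl3 hq (by linarith)
        refine ⟨k', q', hq', ?_⟩
        push_cast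
        linarith
  obtain ⟨L, hL⟩ := exists_nat_gt (D ^ 2 / κ2)
  obtain ⟨κ, β, N, hκ, hβ, hN, hfin⟩ := key L
  obtain ⟨v, ⟨k, p, hp, rfl⟩, hv⟩ := exists_lt_of_lt_csSup hSne (show M1 - κ < sSup S by linarith)
  obtain ⟨l, hkl, hl1, hl2, hl3⟩ := hP m β N k hm hβ hN
  obtain ⟨q, hq, hq1⟩ := exists_refine P V hF hkl hp
  have hq2 : M1 - κ ≤ ‖avg F V.e1 V.e2 q (P.s l)‖ ^ 2 :=
    hv.le.trans (pow_le_pow_left₀ (norm_nonneg _) hq1 2)
  obtain ⟨k', q', hq', hq'2⟩ := hfin l q hl1 hl2 hl3 hq hq2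
  have h1 : ‖avg F V.e2 V.e1 q' (P.s k')‖ ^ 2 ≤ D ^ 2 :=
    pow_le_pow_left₀ (norm_nonneg _) (hV2 k' q') 2
  have h2 : D ^ 2 < L * κ2 := by rwa [div_lt_iff₀ hκ2] at hL
  have h3 : 0 ≤ ‖avg F V.e2 V.e1 q (P.s l)‖ ^ 2 := by positivity
  linarith

end Crest.Agent.R254
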