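import Crest.Agent.R254.ParLemmas

/-!
# Row 254, Task M1: metric comparison
-/

set_option autoImplicit false

open Set Finset Module

namespace Crest.Agent.R254

section metric
variable {B : Type*} [NormedAddCommGroup B] [NormedSpace ℝ B] [CompleteSpace B]
  (P : Par) (V : Vec B)

theorem summable_Phi (ζ : ℕ → ℕ) : Summable (fun k => P.r k • V.W (ζ k)) := by
  refine Summable.of_norm_bounded (g := fun k => P.r k * 8) (P.summable_r.mul_right 8) ?_
  intro k
  rw [norm_smul, Real.norm_of_nonneg (P.r_pos k).le]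
  exact mul_le_mul_of_nonneg_left (V.hW _) (P.r_pos k).le

theorem Phi_sub_Phi (ζ ζ' : ℕ → ℕ) :
    Phi P V ζ - Phi P V ζ' = ∑' k, P.r k • (V.W (ζ k) - V.W (ζ' k)) := by
  unfold Phi
  rw [← (summable_Phi P V ζ).tsum_sub (summable_Phi P V ζ')]
  simp only [smul_sub]

theorem summable_diff (ζ ζ' : ℕ → ℕ) :
    Summable (fun k => P.r k • (V.W (ζ k) - V.W (ζ' k))) := by
  simp only [smul_sub]
  exact (summable_Phi P V ζ).sub (summable_Phi P V ζ')

theorem Phi_sub_Phi_tail {ζ ζ' : ℕ → ℕ} {k : ℕ} (h : ∀ j, j < k → ζ j = ζ' j) :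
    Phi P V ζ - Phi P V ζ' = ∑' j, P.r (k + j) • (V.W (ζ (k + j)) - V.W (ζ' (k + j))) := by
  rw [Phi_sub_Phi]
  rw [← (summable_diff P V ζ ζ').sum_add_tsum_nat_add k]
  rw [Finset.sum_eq_zero, zero_add]
  · simp only [add_comm _ k]
  · intro j hj
    rw [h j (Finset.mem_range.mp hj), sub_self, smul_zero]

/-- if the labels agree below level `k`, the displacements differ by at most `17 r k` -/
theorem norm_Phi_sub_le {ζ ζ' : ℕ → ℕ} {k : ℕ} (h : ∀ j, j < k → ζ j = ζ' j) :
    ‖Phi P V ζ - Phi P V ζ'‖ ≤ 17 * P.r k := by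
  rw [Phi_sub_Phi_tail P V h]
  have hs : Summable (fun j => P.r (k + j)) := by
    have := (summable_nat_add_iff k).mpr P.summable_r
    simpa only [add_comm _ k] using this
  have hb : ∀ j, ‖P.r (k + j) • (V.W (ζ (k + j)) - V.W (ζ' (k + j)))‖ ≤ P.r (k + j) * 16 := by
    intro j
    rw [norm_smul, Real.norm_of_nonneg (P.r_pos _).le]
    refine mul_le_mul_of_nonneg_left ?_ (P.r_pos _).le
    calc ‖V.W (ζ (k + j)) - V.W (ζ' (k + j))‖ ≤ ‖V.W (ζ (k + j))‖ + ‖V.W (ζ' (k + j))‖ :=
          norm_sub_le _ _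
      _ ≤ 8 + 8 := add_le_add (V.hW _) (V.hW _)
      _ = 16 := by norm_num
  have h1 := tsum_of_norm_bounded (hs.mul_right 16).hasSum hb
  refine h1.trans ?_
  rw [tsum_mul_right]
  have h2 := P.tsum_r_tail k
  have h3 := P.r_pos k
  nlinarith

/-- first difference at level `k` -/
theorem r_le_dist {ζ ζ' : ℕ → ℕ} {k : ℕ} (h : ∀ j, j < k → ζ j = ζ' j) (hk : ζ k ≠ ζ' k)
    (x t x' t' : ℝ) : P.r k ≤ 2 * ‖pt P V x t ζ - pt P V x' t' ζ'‖ := by
  -- modify `ζ` at level `k`
  have hr := P.r_pos k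
  have hsplit : Phi P V ζ - Phi P V ζ' =
      P.r k • (V.W (ζ k) - V.W (ζ' k)) +
        (Phi P V (Function.update ζ k (ζ' k)) - Phi P V ζ') := by
    rw [Phi_sub_Phi_tail P V h, Phi_sub_Phi_tail P V (k := k)
      (ζ := Function.update ζ k (ζ' k)) (ζ' := ζ')]
    · have hs1 : Summable (fun j => P.r (k + j) • (V.W (ζ (k + j)) - V.W (ζ' (k + j)))) := by
        have := (summable_nat_add_iff k).mpr (summable_diff P V ζ ζ')
        simpa only [add_comm _ k] using this
      have hs2 : Summable (fun j => P.r (k + j) •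
          (V.W (Function.update ζ k (ζ' k) (k + j)) - V.W (ζ' (k + j)))) := by
        have := (summable_nat_add_iff k).mpr
          (summable_diff P V (Function.update ζ k (ζ' k)) ζ')
        simpa only [add_comm _ k] using this
      rw [hs1.tsum_eq_zero_add, hs2.tsum_eq_zero_add]
      simp
    · intro j hj
      rw [Function.update_of_ne hj.ne, h j hj]
  have htail : ‖Phi P V (Function.update ζ k (ζ' k)) - Phi P V ζ'‖ ≤ P.r k / 2 := by
    have h1 : ∀ j, j < k + 1 → Function.update ζ k (ζ' k) j = ζ' j := by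
      intro j hj
      rcases Nat.lt_succ_iff_lt_or_eq.mp hj with hj | hj
      · rw [Function.update_of_ne hj.ne, h j hj]
      · rw [hj, Function.update_self]
    have h2 := norm_Phi_sub_le P V h1
    have h3 := P.r_succ_le k
    linarith
  have hmain : P.r k ≤ ‖(x - x') • V.e1 + (t - t') • V.e2 + P.r k • (V.W (ζ k) - V.W (ζ' k))‖ := by
    have h1 := V.hsep (ζ k) (ζ' k) hk ((x - x') / P.r k) ((t - t') / P.r k)
    have h2 : (x - x') • V.e1 + (t - t') • V.e2 + P.r k • (V.W (ζ k) - V.W (ζ' k)) =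
        P.r k • (((x - x') / P.r k) • V.e1 + ((t - t') / P.r k) • V.e2 +
          (V.W (ζ k) - V.W (ζ' k))) := by
      rw [smul_add, smul_add, smul_smul, smul_smul, mul_div_cancel₀ _ hr.ne',
        mul_div_cancel₀ _ hr.ne']
    rw [h2, norm_smul, Real.norm_of_nonneg hr.le]
    nlinarith
  have hpt : pt P V x t ζ - pt P V x' t' ζ' =
      ((x - x') • V.e1 + (t - t') • V.e2 + P.r k • (V.W (ζ k) - V.W (ζ' k))) +
        (Phi P V (Function.update ζ k (ζ' k)) - Phi P V ζ') := by
    have : pt P V x t ζ - pt P V x' t' ζ' =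
      (x - x') • V.e1 + (t - t') • V.e2 + (Phi P V ζ - Phi P V ζ') := by
      unfold pt
      rw [sub_smul, sub_smul]
      abel
    rw [this, hsplit]
    abel
  rw [hpt]
  have h5 := norm_sub_le_norm_add
    ((x - x') • V.e1 + (t - t') • V.e2 + P.r k • (V.W (ζ k) - V.W (ζ' k)))
    (Phi P V (Function.update ζ k (ζ' k)) - Phi P V ζ')
  linarith

/-- plane coordinates are Lipschitz functions of the point -/
theorem coord_le_dist (ζ ζ' : ℕ → ℕ) (x t x' t' : ℝ) :
    max |x - x'| |t - t'| ≤ 105 * ‖pt P V x t ζ - pt P V x' t' ζ'‖ := by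
  have h12 := V.h12 (x - x') (t - t')
  have hpt : pt P V x t ζ - pt P V x' t' ζ' =
      ((x - x') • V.e1 + (t - t') • V.e2) + (Phi P V ζ - Phi P V ζ') := by
    unfold pt
    rw [sub_smul, sub_smul]
    abel
  by_cases hζ : ζ = ζ'
  · subst hζ
    rw [hpt, sub_self, add_zero]
    have := norm_nonneg ((x - x') • V.e1 + (t - t') • V.e2)
    linarith
  · have hex : ∃ k, ζ k ≠ ζ' k := by
      by_contra hcon
      push Not at hcon
      exact hζ (funext hcon)
    classical
    set k := Nat.find hex with hkdef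
    have hk : ζ k ≠ ζ' k := Nat.find_spec hex
    have hlt : ∀ j, j < k → ζ j = ζ' j := by
      intro j hj
      by_contra hcon
      exact Nat.find_min hex hj hcon
    have h1 := r_le_dist P V hlt hk x t x' t'
    have h2 := norm_Phi_sub_le P V hlt
    have h3 := norm_sub_le_norm_add ((x - x') • V.e1 + (t - t') • V.e2)
      (Phi P V ζ - Phi P V ζ')
    rw [← hpt] at h3
    linarith

end metric

end Crest.Agent.R254
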