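import Crest.Agent.R254.Defs

/-! # Row 254, task V: the vectors in the Banach space -/

set_option autoImplicit false

open Set

namespace Crest.Agent.R254

theorem exists_vec (B : Type*) [NormedAddCommGroup B] [NormedSpace ℝ B]
    (h : ¬ FiniteDimensional ℝ B) : Nonempty (Vec B) := by
  have hnt : Nontrivial B := by
    by_contra hn
    rw [not_nontrivial_iff_subsingleton] at hn
    exact h inferInstance
  obtain ⟨e1, he1⟩ := exists_norm_eq B (zero_le_one (α := ℝ))
  have hproper : ∀ S : Submodule ℝ B, FiniteDimensional ℝ S → ∃ x : B, x ∉ S := by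
    intro S hS
    by_contra hcon
    push Not at hcon
    have : S = ⊤ := by
      rw [Submodule.eq_top_iff']; exact hcon
    subst this
    exact h (Module.Finite.equiv (Submodule.topEquiv (R := ℝ) (M := B)))
  -- second vector
  have hF1 : FiniteDimensional ℝ (Submodule.span ℝ {e1}) := inferInstance
  obtain ⟨x0, hx0, hx0'⟩ := riesz_lemma (F := Submodule.span ℝ {e1})
    (Submodule.closed_of_finiteDimensional _) (hproper _ hF1) (r := 1 / 2) (by norm_num)
  have hx0n : 0 < ‖x0‖ := by
    rw [norm_pos_iff]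
    rintro rfl
    exact hx0 (Submodule.zero_mem _)
  set e2 : B := ‖x0‖⁻¹ • x0 with he2def
  have he2 : ‖e2‖ = 1 := by
    rw [he2def, norm_smul, norm_inv, norm_norm, inv_mul_cancel₀ hx0n.ne']
  have hsep1 : ∀ x t : ℝ, |t| / 2 ≤ ‖x • e1 + t • e2‖ := by
    intro x t
    by_cases ht : t = 0
    · subst ht; simp
    have hmem : (-(x / t * ‖x0‖)) • e1 ∈ Submodule.span ℝ {e1} :=
      Submodule.smul_mem _ _ (Submodule.subset_span rfl)
    have h1 := hx0' _ hmem
    have h2 : x • e1 + t • e2 = (t / ‖x0‖) • (x0 - (-(x / t * ‖x0‖)) • e1) := by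
      rw [he2def, smul_sub, smul_smul, smul_smul]
      rw [show t / ‖x0‖ * -(x / t * ‖x0‖) = -x by field_simp]
      rw [neg_smul, sub_neg_eq_add, add_comm, div_eq_mul_inv]
    rw [h2, norm_smul, norm_div, norm_norm, Real.norm_eq_abs]
    calc |t| / 2 = |t| / ‖x0‖ * (1 / 2 * ‖x0‖) := by field_simp
      _ ≤ _ := by gcongr
  have h12 : ∀ x t : ℝ, max |x| |t| ≤ 3 * ‖x • e1 + t • e2‖ := by
    intro x t
    have h1 := hsep1 x t
    have h2 : |x| ≤ ‖x • e1 + t • e2‖ + |t| := by
      calc |x| = ‖x • e1‖ := by rw [norm_smul, he1, mul_one, Real.norm_eq_abs]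
        _ = ‖(x • e1 + t • e2) - t • e2‖ := by rw [add_sub_cancel_right]
        _ ≤ ‖x • e1 + t • e2‖ + ‖t • e2‖ := norm_sub_le _ _
        _ = _ := by rw [norm_smul t e2, he2, mul_one, Real.norm_eq_abs]
    have h3 := norm_nonneg (x • e1 + t • e2)
    exact max_le (by linarith) (by linarith)
  -- the quotient
  set S : Submodule ℝ B := Submodule.span ℝ {e1, e2} with hS
  have hSfin : FiniteDimensional ℝ S := by
    rw [hS]
    exact FiniteDimensional.span_of_finite ℝ (Set.toFinite _)
  have hSclosed : IsClosed (S : Set B) := Submodule.closed_of_finiteDimensional _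
  have := hSclosed
  have hQ : ¬ FiniteDimensional ℝ (B ⧸ S) := by
    intro hq
    exact h (Module.Finite.of_submodule_quotient S)
  obtain ⟨f, hf1, hf2⟩ := exists_seq_norm_le_one_le_norm_sub' (𝕜 := ℝ) (E := B ⧸ S) (c := (2 : ℝ))
    (by norm_num) (R := 3) (by norm_num) hQ
  have hlift : ∀ n, ∃ m : B, Submodule.Quotient.mk m = f n ∧ ‖m‖ < ‖f n‖ + 1 :=
    fun n => Submodule.Quotient.norm_mk_lt (f n) one_pos
  choose g hg1 hg2 using hlift
  refine ⟨⟨e1, e2, fun a => g a - g 0, he1.le, he2.le, by simp, fun a => ?_, h12, ?_⟩⟩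
  · have h1 := hg2 a
    have h2 := hg2 0
    have h3 := hf1 a
    have h4 := hf1 0
    have := norm_sub_le (g a) (g 0)
    linarith
  · intro a b hab x t
    have h1 := hf2 hab
    have h2 : (Submodule.Quotient.mk (x • e1 + t • e2 + (g a - g 0 - (g b - g 0))) : B ⧸ S)
        = f a - f b := by
      have h3 : x • e1 + t • e2 ∈ S := by
        refine S.add_mem (S.smul_mem _ (Submodule.subset_span (by simp)))
          (S.smul_mem _ (Submodule.subset_span (by simp)))
      rw [sub_sub_sub_cancel_right, Submodule.Quotient.mk_add, (Submodule.Quotient.mk_eq_zero S).2 h3,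
        zero_add, Submodule.Quotient.mk_sub, hg1, hg1]
    calc (1 : ℝ) ≤ ‖f a - f b‖ := h1
      _ = ‖(Submodule.Quotient.mk (x • e1 + t • e2 + (g a - g 0 - (g b - g 0))) : B ⧸ S)‖ := by
          rw [h2]
      _ ≤ _ := Submodule.Quotient.norm_mk_le _ _

end Crest.Agent.R254
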